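import Vale.Agent.P026.H832.F2

/-!
Translation of the abstract theorem into explicit statements.
-/

open Complex Filter Metric Set Topology P026.H725

namespace Vale.Agent.P026.H832

theorem xiFam_NZ_iff (k : ℕ) (σ0 : ℝ) : xiFam.NZ k σ0 ↔
    ∀ σ : ℝ, σ0 < σ → ∃ T : ℝ, ∀ s : ℂ, σ ≤ s.re → T ≤ |s.im| → iteratedDeriv k xi s ≠ 0 := by
  constructor
  · intro h σ hσ
    obtain ⟨C, hC⟩ := eventually_big.1 (h σ hσ)
    refine ⟨Real.exp C, fun s hs hT => hC ((), s) ?_ hs⟩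
    show C ≤ Real.log (1 * (|s.im| + 1))
    rw [one_mul, Real.le_log_iff_exp_le (by positivity)]
    linarith
  · intro h σ hσ
    obtain ⟨T, hT⟩ := h σ hσ
    exact big_one (T := T) fun x hx hs => hT x.2 hs hx

theorem chiFam_NZ_iff (k : ℕ) (σ0 : ℝ) : chiFam.NZ k σ0 ↔
    ∀ σ : ℝ, σ0 < σ → ∃ C : ℝ, ∀ (q : ℕ) [NeZero q] (χ : DirichletCharacter ℂ q), χ.IsPrimitive →
      χ ≠ 1 → ∀ s : ℂ, σ ≤ s.re → C ≤ q * (|s.im| + 1) → iteratedDeriv k (Lam χ) s ≠ 0 := by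
  constructor
  · intro h σ hσ
    obtain ⟨C, hC⟩ := eventually_big.1 (h σ hσ)
    refine ⟨Real.exp C, fun q hq χ hp h1 s hs hT => ?_⟩
    refine hC (⟨q, hq.ne, χ, hp, h1⟩, s) ?_ hs
    show C ≤ Real.log ((q : ℝ) * (|s.im| + 1))
    rwa [Real.le_log_iff_exp_le ((Real.exp_pos C).trans_le hT)]
  · intro h σ hσ
    obtain ⟨C, hC⟩ := h σ hσ
    rw [eventually_big]
    refine ⟨Real.log (max C 1), fun x hx hs => ?_⟩
    refine hC x.1.q x.1.χ x.1.prim x.1.ne_one x.2 hs ?_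
    have hq := x.1.one_le
    have hx' : Real.log (max C 1) ≤ Real.log ((x.1.q : ℝ) * (|x.2.im| + 1)) := hx
    have h1 := (Real.log_le_log_iff (by positivity) (by positivity)).1 hx'
    exact (le_max_left C 1).trans h1

theorem xi_ne_zero_iff {s : ℂ} (hs : 0 < s.re) : xi s ≠ 0 ↔ riemannZeta s ≠ 0 := by
  by_cases h1 : s = 1
  · subst h1
    have : xi 1 = 1 := by unfold xi; simp
    rw [this]
    exact ⟨fun _ => riemannZeta_ne_zero_of_one_le_re (by simp), fun _ => one_ne_zero⟩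
  · rw [xi_eq hs h1]
    exact ⟨fun h => right_ne_zero_of_mul h, fun h => mul_ne_zero (GXi_ne_zero hs h1) h⟩

theorem Lam_ne_zero_iff {q : ℕ} [NeZero q] {χ : DirichletCharacter ℂ q} (hp : χ.IsPrimitive)
    (h1 : χ ≠ 1) {s : ℂ} (hs : 0 < s.re) : Lam χ s ≠ 0 ↔ χ.LFunction s ≠ 0 := by
  set p : PChar := ⟨q, NeZero.ne q, χ, hp, h1⟩ with hpdef
  have e : Lam χ s = GLf p.q p.κ s * χ.LFunction s := p.Lam_eq hs
  rw [e]
  have hG : GLf p.q p.κ s ≠ 0 := GLf_ne_zero (by have := p.one_le; linarith) p.κ_nonneg hs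
  exact ⟨fun h => right_ne_zero_of_mul h, fun h => mul_ne_zero hG h⟩

/-- **sharp form for `ξ`** -/
theorem sharp_xi (k : ℕ) {σ0 : ℝ} (h0 : 1/2 ≤ σ0) (h1 : σ0 < 2) :
    (∀ σ : ℝ, σ0 < σ → ∃ T : ℝ, ∀ s : ℂ, σ ≤ s.re → T ≤ |s.im| → riemannZeta s ≠ 0) ↔
    (∀ σ : ℝ, σ0 < σ → ∃ T : ℝ, ∀ s : ℂ, σ ≤ s.re → T ≤ |s.im| → iteratedDeriv k xi s ≠ 0) := by
  rw [← xiFam_NZ_iff, xiFam.nz_iff k 0 h0 h1, xiFam_NZ_iff]
  refine forall₂_congr fun σ hσ => exists_congr fun T => forall₂_congr fun s hs => ?_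
  rw [iteratedDeriv_zero, xi_ne_zero_iff (by linarith)]

/-- **sharp uniform form** -/
theorem sharp_chi (k : ℕ) {σ0 : ℝ} (h0 : 1/2 ≤ σ0) (h1 : σ0 < 2) :
    (∀ σ : ℝ, σ0 < σ → ∃ C : ℝ, ∀ (q : ℕ) [NeZero q] (χ : DirichletCharacter ℂ q), χ.IsPrimitive →
      χ ≠ 1 → ∀ s : ℂ, σ ≤ s.re → C ≤ q * (|s.im| + 1) → χ.LFunction s ≠ 0) ↔
    (∀ σ : ℝ, σ0 < σ → ∃ C : ℝ, ∀ (q : ℕ) [NeZero q] (χ : DirichletCharacter ℂ q), χ.IsPrimitive →
      χ ≠ 1 → ∀ s : ℂ, σ ≤ s.re → C ≤ q * (|s.im| + 1) → iteratedDeriv k (Lam χ) s ≠ 0) := by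
  rw [← chiFam_NZ_iff, chiFam.nz_iff k 0 h0 h1, chiFam_NZ_iff]
  refine forall₂_congr fun σ hσ => exists_congr fun C => forall_congr' fun q => forall_congr' fun hq =>
    forall_congr' fun χ => forall₂_congr fun hp hne => forall₂_congr fun s hs => ?_
  rw [iteratedDeriv_zero, Lam_ne_zero_iff hp hne (by linarith)]

/-- zeros in a compact set to the left of `1` -/
theorem exists_lt_one {f : ℂ → ℂ} (hf : Continuous f) {K : Set ℂ} (hK : IsCompact K)
    (h1 : ∀ s ∈ K, 1 ≤ s.re → f s ≠ 0) : ∃ σ1 < (1:ℝ), ∀ s ∈ K, f s = 0 → s.re ≤ σ1 := by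
  set Z : Set ℂ := K ∩ f ⁻¹' {0} with hZ
  have hZc : IsCompact Z := hK.inter_right (isClosed_singleton.preimage hf)
  rcases Z.eq_empty_or_nonempty with he | hne
  · refine ⟨0, by norm_num, fun s hs h0 => ?_⟩
    have : s ∈ Z := ⟨hs, h0⟩
    rw [he] at this
    exact this.elim
  · obtain ⟨z, hz, hmax⟩ := hZc.exists_isMaxOn hne Complex.continuous_re.continuousOn
    refine ⟨z.re, ?_, fun s hs h0 => hmax ⟨hs, h0⟩⟩
    by_contra hcon
    exact h1 z hz.1 (not_lt.1 hcon) hz.2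

theorem isCompact_box (a b T : ℝ) : IsCompact {s : ℂ | a ≤ s.re ∧ s.re ≤ b ∧ |s.im| ≤ T} := by
  have : {s : ℂ | a ≤ s.re ∧ s.re ≤ b ∧ |s.im| ≤ T} = (Icc a b) ×ℂ (Icc (-T) T) := by
    ext s
    simp only [mem_ofPred_eq, mem_reProdIm, mem_Icc, abs_le]
    tauto
  rw [this]
  exact isCompact_Icc.reProdIm isCompact_Icc

/-- the function `ξ`: from large heights to all heights -/
theorem xi_all {σ : ℝ} (hσ : 1/2 ≤ σ) {T : ℝ}
    (h : ∀ s : ℂ, σ ≤ s.re → T ≤ |s.im| → riemannZeta s ≠ 0) :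
    ∃ σ1 < (1:ℝ), ∀ s : ℂ, σ < s.re → σ1 < s.re → riemannZeta s ≠ 0 := by
  obtain ⟨σ1, h1, h2⟩ := exists_lt_one differentiable_xi.continuous (isCompact_box σ 1 T)
    (fun s hs hre => (xi_ne_zero_iff (by linarith)).2 (riemannZeta_ne_zero_of_one_le_re hre))
  refine ⟨σ1, h1, fun s hs hs1 h0 => ?_⟩
  rcases le_or_gt 1 s.re with h3 | h3
  · exact riemannZeta_ne_zero_of_one_le_re h3 h0
  rcases le_or_gt T |s.im| with h4 | h4
  · exact h s hs.le h4 h0
  · have h5 : xi s = 0 := by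
      by_contra h6
      exact (xi_ne_zero_iff (by linarith)).1 h6 h0
    have := h2 s ⟨hs.le, h3.le, h4.le⟩ h5
    linarith

/-- all primitive characters: from large conductors to all conductors -/
theorem chi_all {σ : ℝ} (hσ : 1/2 ≤ σ) {C : ℝ}
    (h : ∀ (q : ℕ) [NeZero q] (χ : DirichletCharacter ℂ q), χ.IsPrimitive → χ ≠ 1 →
      ∀ s : ℂ, σ ≤ s.re → C ≤ q * (|s.im| + 1) → χ.LFunction s ≠ 0) :
    ∃ σ1 < (1:ℝ), ∀ (q : ℕ) [NeZero q] (χ : DirichletCharacter ℂ q), χ.IsPrimitive → χ ≠ 1 →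
      ∀ s : ℂ, σ < s.re → σ1 < s.re → χ.LFunction s ≠ 0 := by
  -- one character
  have hone : ∀ (q : ℕ) (χ : DirichletCharacter ℂ q), ∃ σ1 < (1:ℝ), q ≠ 0 → χ ≠ 1 →
      ∀ s : ℂ, σ ≤ s.re → s.re ≤ 1 → |s.im| ≤ C → ∀ _ : NeZero q, χ.LFunction s = 0 → s.re ≤ σ1 := by
    intro q χ
    by_cases hq : q = 0
    · exact ⟨0, by norm_num, fun h0 => (h0 hq).elim⟩
    by_cases hχ : χ = 1
    · exact ⟨0, by norm_num, fun _ h0 => (h0 hχ).elim⟩
    have : NeZero q := ⟨hq⟩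
    obtain ⟨σ1, h1, h2⟩ := exists_lt_one
      (DirichletCharacter.differentiable_LFunction hχ).continuous (isCompact_box σ 1 C)
      (fun s hs hre => DirichletCharacter.LFunction_ne_zero_of_one_le_re χ (Or.inl hχ) hre)
    exact ⟨σ1, h1, fun _ _ s hs hs1 hC _ h0 => h2 s ⟨hs, hs1, hC⟩ h0⟩
  -- finitely many characters
  have hfin : ∀ N : ℕ, ∃ σ1 < (1:ℝ), ∀ q : ℕ, q ≤ N → q ≠ 0 → ∀ χ : DirichletCharacter ℂ q, χ ≠ 1 →
      ∀ s : ℂ, σ ≤ s.re → s.re ≤ 1 → |s.im| ≤ C → ∀ _ : NeZero q, χ.LFunction s = 0 → s.re ≤ σ1 := by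
    intro N
    induction N with
    | zero => exact ⟨0, by norm_num, fun q hq h0 => (h0 (Nat.le_zero.1 hq)).elim⟩
    | succ N ih =>
      obtain ⟨σa, ha, hA⟩ := ih
      have : NeZero (N+1) := ⟨Nat.succ_ne_zero N⟩
      choose g hg1 hg2 using hone (N+1)
      have : Finite (DirichletCharacter ℂ (N+1)) := inferInstance
      have : Fintype (DirichletCharacter ℂ (N+1)) := Fintype.ofFinite _
      have hne : (Finset.univ : Finset (DirichletCharacter ℂ (N+1))).Nonempty := ⟨1, Finset.mem_univ _⟩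
      refine ⟨max σa (Finset.univ.sup' hne g), max_lt ha ((Finset.sup'_lt_iff hne).2 fun χ _ => hg1 χ),
        ?_⟩
      intro q hq hq0 χ hχ s hs hs1 hC hN h0
      rcases Nat.lt_or_ge N q with h5 | h5
      · have : q = N + 1 := le_antisymm hq h5
        subst this
        exact (hg2 χ hq0 hχ s hs hs1 hC hN h0).trans
          ((Finset.le_sup' g (Finset.mem_univ χ)).trans (le_max_right _ _))
      · exact (hA q h5 hq0 χ hχ s hs hs1 hC hN h0).trans (le_max_left _ _)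
  obtain ⟨N, hN⟩ := exists_nat_ge C
  obtain ⟨σ1, h1, h2⟩ := hfin N
  refine ⟨σ1, h1, fun q hq χ hp hχ s hs hs1 h0 => ?_⟩
  rcases le_or_gt 1 s.re with h3 | h3
  · exact DirichletCharacter.LFunction_ne_zero_of_one_le_re χ (Or.inl hχ) h3 h0
  rcases le_or_gt C (q * (|s.im| + 1)) with h4 | h4
  · exact h q χ hp hχ s hs.le h4 h0
  · have hq1 : (1:ℝ) ≤ q := by exact_mod_cast Nat.one_le_iff_ne_zero.2 hq.ne
    have hi := abs_nonneg s.im
    have h5 : |s.im| ≤ C := by nlinarith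
    have h6 : (q:ℝ) ≤ N := by nlinarith
    have h7 : q ≤ N := by exact_mod_cast h6
    have := h2 q h7 hq.ne χ hχ s hs.le h3.le h5 hq h0
    linarith

/-- from primitive characters to all characters -/
theorem all_of_primitive {σ : ℝ} (hσ : 1/2 ≤ σ)
    (hz : ∀ s : ℂ, σ < s.re → riemannZeta s ≠ 0)
    (h : ∀ (q : ℕ) [NeZero q] (χ : DirichletCharacter ℂ q), χ.IsPrimitive → χ ≠ 1 →
      ∀ s : ℂ, σ < s.re → χ.LFunction s ≠ 0)
    (q : ℕ) [NeZero q] (χ : DirichletCharacter ℂ q) (s : ℂ) (hs : σ < s.re) (hs1 : s.re < 1) :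
    χ.LFunction s ≠ 0 := by
  have hne1 : s ≠ 1 := by rintro rfl; simp at hs1
  have : NeZero χ.conductor := ⟨fun h0 => (NeZero.ne q) (χ.conductor_eq_zero_iff_level_eq_zero.1 h0)⟩
  have hdvd : χ.conductor ∣ q := χ.conductor_dvd_level
  have e1 : DirichletCharacter.changeLevel hdvd χ.primitiveCharacter = χ :=
    (χ.factorsThrough_conductor.eq_changeLevel).symm
  have e2 := DirichletCharacter.LFunction_changeLevel hdvd χ.primitiveCharacter (s := s) (Or.inr hne1)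
  rw [e1] at e2
  rw [e2]
  refine mul_ne_zero ?_ ?_
  · by_cases hc : χ.primitiveCharacter = 1
    · -- the conductor is one
      have hc1 : χ.conductor = 1 := by
        have hp := χ.primitiveCharacter_isPrimitive
        rw [hc, DirichletCharacter.isPrimitive_def] at hp
        rw [DirichletCharacter.conductor_one] at hp
        exact hp.symm
      have key : ∀ (n : ℕ) [NeZero n] (ψ : DirichletCharacter ℂ n), n = 1 → ψ.LFunction s ≠ 0 := by
        intro n _ ψ hn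
        subst hn
        rw [DirichletCharacter.LFunction_modOne_eq]
        exact hz s hs
      exact key _ _ hc1
    · exact h _ _ χ.primitiveCharacter_isPrimitive hc s hs
  · rw [Finset.prod_ne_zero_iff]
    intro p hp h0
    have hpp : p.Prime := Nat.prime_of_mem_primeFactors hp
    have h2 : ‖χ.primitiveCharacter p * (p : ℂ) ^ (-s)‖ = 1 := by
      rw [sub_eq_zero] at h0
      rw [← h0, norm_one]
    rw [norm_mul, Complex.norm_natCast_cpow_of_pos hpp.pos, Complex.neg_re] at h2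
    have h3 := DirichletCharacter.norm_le_one χ.primitiveCharacter (p : ZMod χ.conductor)
    have h4 : (p:ℝ) ^ (-s.re) < 1 := by
      apply Real.rpow_lt_one_of_one_lt_of_neg
      · exact_mod_cast hpp.one_lt
      · linarith
    have h5 : 0 < (p:ℝ) ^ (-s.re) := Real.rpow_pos_of_pos (by exact_mod_cast hpp.pos) _
    have h6 := norm_nonneg (χ.primitiveCharacter (p : ZMod χ.conductor))
    nlinarith

end Vale.Agent.P026.H832
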