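import Mathlib

/-!
Elementary complex analysis for the theorem on derivatives: three circles, tameness of zero-free
functions, comparison lemmas along segments and rays.
-/

open Complex Filter Metric Set Topology

namespace Vale.Agent.P026.H832

/-- Hadamard's three circles theorem (from the three lines theorem). -/
theorem three_circles {f : ℂ → ℂ} {r R R' a b : ℝ} (hr : 0 < r) (hrR : r < R) (hRR' : R < R')
    (hf : DifferentiableOn ℂ f (ball 0 R'))
    (ha : ∀ z : ℂ, ‖z‖ = r → ‖f z‖ ≤ a) (hb : ∀ z : ℂ, ‖z‖ = R → ‖f z‖ ≤ b)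
    {z : ℂ} (h1 : r ≤ ‖z‖) (h2 : ‖z‖ ≤ R) :
    ‖f z‖ ≤ a ^ (1 - (Real.log ‖z‖ - Real.log r) / (Real.log R - Real.log r)) *
      b ^ ((Real.log ‖z‖ - Real.log r) / (Real.log R - Real.log r)) := by
  have hz0 : 0 < ‖z‖ := hr.trans_le h1
  have hz : z ≠ 0 := norm_pos_iff.1 hz0
  have hR : 0 < R := hr.trans hrR
  have hul : Real.log r < Real.log R := Real.log_lt_log hr hrR
  have hsub : ∀ w : ℂ, w.re ≤ Real.log R → cexp w ∈ closedBall (0 : ℂ) R := by
    intro w hw
    rw [mem_closedBall, dist_zero_right, Complex.norm_exp]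
    calc Real.exp w.re ≤ Real.exp (Real.log R) := Real.exp_le_exp.2 hw
      _ = R := Real.exp_log hR
  have hcl : closure (HadamardThreeLines.verticalStrip (Real.log r) (Real.log R)) ⊆
      {w : ℂ | w.re ≤ Real.log R} := by
    refine closure_minimal ?_ (isClosed_le Complex.continuous_re continuous_const)
    intro w hw
    exact le_of_lt hw.2
  have hdiff : DiffContOnCl ℂ (fun w => f (cexp w))
      (HadamardThreeLines.verticalStrip (Real.log r) (Real.log R)) := by
    apply DifferentiableOn.diffContOnCl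
    refine hf.comp Complex.differentiable_exp.differentiableOn ?_
    intro w hw
    exact closedBall_subset_ball hRR' (hsub w (hcl hw))
  have hbdd : BddAbove ((norm ∘ fun w => f (cexp w)) ''
      HadamardThreeLines.verticalClosedStrip (Real.log r) (Real.log R)) := by
    have hc : IsCompact (closedBall (0 : ℂ) R) := isCompact_closedBall 0 R
    have hcont : ContinuousOn (fun w => ‖f w‖) (closedBall (0 : ℂ) R) :=
      (hf.continuousOn.mono (closedBall_subset_ball hRR')).norm
    obtain ⟨C, hC⟩ := (hc.image_of_continuousOn hcont).bddAbove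
    refine ⟨C, ?_⟩
    rintro _ ⟨w, hw, rfl⟩
    exact hC ⟨cexp w, hsub w hw.2, rfl⟩
  have key := HadamardThreeLines.norm_le_interp_of_mem_verticalClosedStrip' (f := fun w => f (cexp w))
    (z := Complex.log z) (a := a) (b := b) hul ?_ hdiff hbdd ?_ ?_
  · simpa [Complex.exp_log hz, Complex.log_re] using key
  · constructor
    · rw [Complex.log_re]; exact Real.log_le_log hr h1
    · rw [Complex.log_re]; exact Real.log_le_log hz0 h2
  · intro w hw
    apply ha
    have : w.re = Real.log r := hw
    rw [Complex.norm_exp, this, Real.exp_log hr]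
  · intro w hw
    apply hb
    have : w.re = Real.log R := hw
    rw [Complex.norm_exp, this, Real.exp_log hR]

/-- A zero-free function on a ball has a logarithm vanishing at the centre. -/
theorem exists_log {k : ℂ → ℂ} {z0 : ℂ} {R : ℝ} (hR : 0 < R) (hk : DifferentiableOn ℂ k (ball z0 R))
    (hk0 : ∀ z ∈ ball z0 R, k z ≠ 0) :
    ∃ φ : ℂ → ℂ, φ z0 = 0 ∧ (∀ z ∈ ball z0 R, HasDerivAt φ (deriv k z / k z) z) ∧
      ∀ z ∈ ball z0 R, k z = k z0 * cexp (φ z) := by
  have hz0 : z0 ∈ ball z0 R := mem_ball_self hR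
  have hopen : IsOpen (ball z0 R) := isOpen_ball
  have hkd : ∀ z ∈ ball z0 R, HasDerivAt k (deriv k z) z := fun z hz =>
    ((hk z hz).differentiableAt (hopen.mem_nhds hz)).hasDerivAt
  have hdk : DifferentiableOn ℂ (fun z => deriv k z / k z) (ball z0 R) :=
    ((hk.deriv hopen).div hk hk0)
  obtain ⟨ψ, hψ⟩ := hdk.isExactOn_ball
  refine ⟨fun z => ψ z - ψ z0, by simp, fun z hz => (hψ z hz).sub_const _, ?_⟩
  have hconv : Convex ℝ (ball z0 R) := convex_ball z0 R
  have hd : ∀ z ∈ ball z0 R, HasDerivAt (fun z => k z * cexp (-(ψ z - ψ z0))) 0 z := by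
    intro z hz
    have h1 := (hkd z hz).mul (((hψ z hz).sub_const (ψ z0)).neg.cexp)
    refine h1.congr_deriv ?_
    have := hk0 z hz
    field_simp
    ring
  have hconst : ∀ z ∈ ball z0 R, k z * cexp (-(ψ z - ψ z0)) = k z0 := by
    intro z hz
    have := hconv.is_const_of_fderivWithin_eq_zero (𝕜 := ℂ)
      (f := fun z => k z * cexp (-(ψ z - ψ z0)))
      (fun z hz => (hd z hz).differentiableAt.differentiableWithinAt)
      (fun z hz => by
        rw [fderivWithin_of_isOpen hopen hz]
        have := (hd z hz).hasFDerivAt.fderiv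
        rw [this]; ext; simp) (x := z) (y := z0) hz hz0
    simpa using this
  intro z hz
  rw [← hconst z hz, mul_assoc, ← Complex.exp_add]
  simp

end Vale.Agent.P026.H832
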