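import Vale.Agent.P026.H832.A1

/-!
Tameness: a zero-free function of moderate growth in a disc, which is close to constant near the
centre, has a small logarithmic derivative in the interior.
-/

open Complex Filter Metric Set Topology

namespace Vale.Agent.P026.H832

/-- core of tameness for a function with bounded real part -/
theorem tame_log {ρ R : ℝ} (hρ : 1 ≤ ρ) (hR : ρ < R) :
    ∃ B : ℝ, 0 < B ∧ ∃ θ : ℝ, 0 < θ ∧ θ < 1 ∧ ∀ (φ : ℂ → ℂ) (M C : ℝ), 0 < C → 0 < M →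
      DifferentiableOn ℂ φ (ball 0 R) → φ 0 = 0 → (∀ z ∈ ball (0:ℂ) R, (φ z).re ≤ M) →
      (∀ z ∈ ball (0:ℂ) 1, (φ z).re ≤ C) →
      ∀ z ∈ closedBall (0:ℂ) ρ, ‖φ z‖ ≤ B * (C ^ (1 - θ) * M ^ θ) ∧
        ‖deriv φ z‖ ≤ B * (C ^ (1 - θ) * M ^ θ) := by
  set ρ1 : ℝ := ρ + (R - ρ) / 3 with hρ1
  set R1 : ℝ := ρ + 2 * (R - ρ) / 3 with hR1
  have a1 : ρ < ρ1 := by rw [hρ1]; linarith
  have a2 : ρ1 < R1 := by rw [hρ1, hR1]; linarith
  have a3 : R1 < R := by rw [hR1]; linarith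
  have a4 : 0 < ρ1 := by linarith
  have a5 : 0 < R1 := by linarith
  have l1 : Real.log (1/2) < Real.log ρ1 := Real.log_lt_log (by norm_num) (by linarith)
  have l2 : Real.log ρ1 < Real.log R1 := Real.log_lt_log a4 a2
  set θ : ℝ := (Real.log ρ1 - Real.log (1/2)) / (Real.log R1 - Real.log (1/2)) with hθ
  have hθ0 : 0 < θ := div_pos (by linarith) (by linarith)
  have hθ1 : θ < 1 := by rw [hθ, div_lt_one (by linarith)]; linarith
  set B1 : ℝ := 2 * R1 / (R - R1) with hB1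
  have hB1p : 0 < B1 := div_pos (by linarith) (by linarith)
  set B2 : ℝ := (2:ℝ) ^ (1 - θ) * B1 ^ θ with hB2
  have hB2p : 0 < B2 := by positivity
  refine ⟨max B2 (B2 / (ρ1 - ρ)), lt_max_of_lt_left hB2p, θ, hθ0, hθ1, ?_⟩
  intro φ M C hC hM hφ hφ0 hreM hreC z hz
  have bM : ∀ w : ℂ, ‖w‖ = R1 → ‖φ w‖ ≤ B1 * M := by
    intro w hw
    have := borelCaratheodory_zero (f := φ) (M := M) (R := R) (z := w) hM hφ
      (fun v hv => hreM v hv) (by linarith) (by rw [mem_ball, dist_zero_right, hw]; exact a3) hφ0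
    rw [hw] at this
    calc ‖φ w‖ ≤ 2 * M * R1 / (R - R1) := this
      _ = B1 * M := by rw [hB1]; ring
  have bC : ∀ w : ℂ, ‖w‖ = 1/2 → ‖φ w‖ ≤ 2 * C := by
    intro w hw
    have h11 : ball (0:ℂ) 1 ⊆ ball 0 R := ball_subset_ball (by linarith)
    have := borelCaratheodory_zero (f := φ) (M := C) (R := 1) (z := w) hC (hφ.mono h11)
      (fun v hv => hreC v hv) (by linarith) (by rw [mem_ball, dist_zero_right, hw]; norm_num) hφ0
    rw [hw] at this
    calc ‖φ w‖ ≤ 2 * C * (1/2) / (1 - 1/2) := this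
      _ = 2 * C := by ring
  set E : ℝ := C ^ (1 - θ) * M ^ θ with hE
  have hEp : 0 < E := by positivity
  have bρ : ∀ w : ℂ, ‖w‖ = ρ1 → ‖φ w‖ ≤ B2 * E := by
    intro w hw
    have := three_circles (f := φ) (r := 1/2) (R := R1) (R' := R) (a := 2 * C) (b := B1 * M)
      (by norm_num) (by linarith) a3 hφ bC bM (z := w) (by rw [hw]; linarith) (by rw [hw]; exact a2.le)
    rw [hw] at this
    refine this.trans (le_of_eq ?_)
    rw [← hθ, Real.mul_rpow (by norm_num) hC.le, Real.mul_rpow hB1p.le hM.le, hB2, hE]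
    ring
  have hcl : closedBall (0:ℂ) ρ1 ⊆ ball 0 R := closedBall_subset_ball (by linarith)
  have bin : ∀ w ∈ closedBall (0:ℂ) ρ1, ‖φ w‖ ≤ B2 * E := by
    intro w hw
    have hd : DiffContOnCl ℂ φ (ball (0:ℂ) ρ1) := by
      apply DifferentiableOn.diffContOnCl
      rw [closure_ball _ a4.ne']
      exact hφ.mono hcl
    refine Complex.norm_le_of_forall_mem_frontier_norm_le isBounded_ball hd ?_ ?_
    · intro v hv
      rw [frontier_ball _ a4.ne', mem_sphere, dist_zero_right] at hv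
      exact bρ v hv
    · rwa [closure_ball _ a4.ne']
  constructor
  · refine (bin z (closedBall_subset_closedBall a1.le hz)).trans ?_
    exact mul_le_mul_of_nonneg_right (le_max_left _ _) hEp.le
  · have hsub : closedBall z (ρ1 - ρ) ⊆ closedBall (0:ℂ) ρ1 := by
      intro v hv
      rw [mem_closedBall, dist_zero_right]
      rw [mem_closedBall, dist_zero_right] at hz
      rw [mem_closedBall, dist_eq_norm] at hv
      calc ‖v‖ = ‖(v - z) + z‖ := by ring_nf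
        _ ≤ ‖v - z‖ + ‖z‖ := norm_add_le _ _
        _ ≤ ρ1 := by linarith
    have h := Complex.norm_deriv_le_of_forall_mem_sphere_norm_le (f := φ) (c := z) (R := ρ1 - ρ)
      (C := B2 * E) (by linarith) ?_ ?_
    · refine h.trans ?_
      calc B2 * E / (ρ1 - ρ) = B2 / (ρ1 - ρ) * E := by ring
        _ ≤ _ := mul_le_mul_of_nonneg_right (le_max_right _ _) hEp.le
    · apply DifferentiableOn.diffContOnCl
      rw [closure_ball _ (by linarith : ρ1 - ρ ≠ 0)]
      exact hφ.mono (hsub.trans hcl)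
    · intro v hv
      exact bin v (hsub (sphere_subset_closedBall hv))

/-- **Tameness.** -/
theorem tame_single {ρ R : ℝ} (hρ : 1 ≤ ρ) (hR : ρ < R) :
    ∃ B : ℝ, 0 < B ∧ ∃ θ : ℝ, 0 < θ ∧ θ < 1 ∧ ∀ (k : ℂ → ℂ) (z0 : ℂ) (M C : ℝ), 0 < C → 0 < M →
      DifferentiableOn ℂ k (ball z0 R) → (∀ z ∈ ball z0 R, k z ≠ 0) →
      (∀ z ∈ ball z0 R, ‖k z‖ ≤ Real.exp M * ‖k z0‖) →
      (∀ z ∈ ball z0 1, ‖k z‖ ≤ Real.exp C * ‖k z0‖) →
      ∀ z ∈ closedBall z0 ρ,
        ‖deriv k z‖ ≤ B * (C ^ (1 - θ) * M ^ θ) * ‖k z‖ ∧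
        ‖k z‖ ≤ Real.exp (B * (C ^ (1 - θ) * M ^ θ)) * ‖k z0‖ ∧
        ‖k z0‖ ≤ Real.exp (B * (C ^ (1 - θ) * M ^ θ)) * ‖k z‖ := by
  obtain ⟨B, hB, θ, hθ0, hθ1, H⟩ := tame_log hρ hR
  refine ⟨B, hB, θ, hθ0, hθ1, ?_⟩
  intro k z0 M C hC hM hk hk0 hkM hkC z hz
  have hRp : 0 < R := by linarith
  obtain ⟨φ, hφ0, hφd, hφ⟩ := exists_log hRp hk hk0
  have hkz0 : 0 < ‖k z0‖ := norm_pos_iff.2 (hk0 z0 (mem_ball_self hRp))
  have hre : ∀ z ∈ ball z0 R, ∀ M' : ℝ, ‖k z‖ ≤ Real.exp M' * ‖k z0‖ → (φ z).re ≤ M' := by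
    intro v hv M' h
    rw [hφ v hv, norm_mul, Complex.norm_exp, mul_comm] at h
    exact Real.exp_le_exp.1 (le_of_mul_le_mul_right h hkz0)
  have hmem : ∀ r : ℝ, ∀ w ∈ ball (0:ℂ) r, z0 + w ∈ ball z0 r := by
    intro r w hw
    rw [mem_ball, dist_eq_norm]
    rw [mem_ball, dist_zero_right] at hw
    simpa using hw
  have hd : ∀ w ∈ ball (0:ℂ) R, HasDerivAt (fun w => φ (z0 + w))
      (deriv k (z0 + w) / k (z0 + w)) w := by
    intro w hw
    exact (hφd (z0 + w) (hmem R w hw)).comp_const_add z0 w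
  have key := H (fun w => φ (z0 + w)) M C hC hM
    (fun w hw => (hd w hw).differentiableAt.differentiableWithinAt) (by simpa using hφ0)
    (fun w hw => hre _ (hmem R w hw) M (hkM _ (hmem R w hw)))
    (fun w hw => hre _ (ball_subset_ball (by linarith) (hmem 1 w hw)) C (hkC _ (hmem 1 w hw)))
    (z - z0) (by
      rw [mem_closedBall, dist_zero_right]
      rwa [mem_closedBall, dist_eq_norm] at hz)
  have hzR : z ∈ ball z0 R := closedBall_subset_ball hR hz
  have hz' : z - z0 ∈ ball (0:ℂ) R := by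
    rw [mem_ball, dist_zero_right]
    rwa [mem_ball, dist_eq_norm] at hzR
  rw [(hd (z - z0) hz').deriv] at key
  simp only [add_sub_cancel] at key
  obtain ⟨k1, k2⟩ := key
  have hkz : 0 < ‖k z‖ := norm_pos_iff.2 (hk0 z hzR)
  refine ⟨?_, ?_, ?_⟩
  · rw [norm_div, div_le_iff₀ hkz] at k2
    exact k2
  · rw [hφ z hzR, norm_mul, Complex.norm_exp, mul_comm]
    exact mul_le_mul_of_nonneg_right (Real.exp_le_exp.2 ((Complex.re_le_norm _).trans k1)) hkz0.le
  · have e : ‖k z‖ = ‖k z0‖ * Real.exp (φ z).re := by rw [hφ z hzR, norm_mul, Complex.norm_exp]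
    rw [e]
    have h1 : -(B * (C ^ (1 - θ) * M ^ θ)) ≤ (φ z).re := by
      have := Complex.abs_re_le_norm (φ z)
      have := (abs_le.1 (this.trans k1)).1
      linarith
    have h2 : 1 ≤ Real.exp (B * (C ^ (1 - θ) * M ^ θ)) * Real.exp (φ z).re := by
      rw [← Real.exp_add]
      exact Real.one_le_exp (by linarith)
    nlinarith

end Vale.Agent.P026.H832
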