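import Vale.Agent.P026.H832.A2

/-!
Comparison lemmas along segments and rays for solutions of `g' = α g`.
-/

open Complex Filter Metric Set Topology

namespace Vale.Agent.P026.H832

/-- a solution of `g' = α g` with `Re α ≤ m` grows at most like `exp (m u)` -/
theorem norm_le_exp {g α : ℝ → ℂ} {U m : ℝ}
    (hg : ∀ u ∈ Icc 0 U, HasDerivAt g (α u * g u) u) (hα : ∀ u ∈ Icc 0 U, (α u).re ≤ m) :
    ∀ u ∈ Icc 0 U, ‖g u‖ ≤ ‖g 0‖ * Real.exp (m * u) := by
  intro u hu
  set f : ℝ → ℝ := fun u => ‖g u‖ ^ 2 * Real.exp (-(2 * m * u)) with hf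
  have hd : ∀ v ∈ Icc 0 U, HasDerivAt f
      (2 * ((α v).re - m) * (‖g v‖ ^ 2 * Real.exp (-(2 * m * v)))) v := by
    intro v hv
    have h1 : HasDerivAt (fun u => ‖g u‖ ^ 2) (2 * (α v).re * ‖g v‖ ^ 2) v := by
      have := (hg v hv).norm_sq
      refine this.congr_deriv ?_
      rw [Complex.inner, ← Complex.normSq_eq_norm_sq, Complex.normSq_apply]
      simp
      ring
    have h2 : HasDerivAt (fun u : ℝ => Real.exp (-(2 * m * u)))
        (Real.exp (-(2 * m * v)) * (-(2 * m * 1))) v :=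
      (((hasDerivAt_id v).const_mul (2 * m)).neg).exp
    refine (h1.mul h2).congr_deriv ?_
    ring
  have hanti : AntitoneOn f (Icc 0 U) := by
    refine antitoneOn_of_deriv_nonpos (convex_Icc 0 U)
      (fun v hv => (hd v hv).continuousAt.continuousWithinAt) ?_ ?_
    · intro v hv
      rw [interior_Icc] at hv
      exact (hd v (Ioo_subset_Icc_self hv)).differentiableAt.differentiableWithinAt
    · intro v hv
      rw [interior_Icc] at hv
      rw [(hd v (Ioo_subset_Icc_self hv)).deriv]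
      have := hα v (Ioo_subset_Icc_self hv)
      have h3 : 0 ≤ ‖g v‖ ^ 2 * Real.exp (-(2 * m * v)) := by positivity
      nlinarith
  have hle := hanti ⟨le_refl 0, hu.1.trans hu.2⟩ hu hu.1
  simp only [hf, mul_zero, neg_zero, Real.exp_zero, mul_one] at hle
  have h4 : ‖g u‖ ^ 2 ≤ (‖g 0‖ * Real.exp (m * u)) ^ 2 := by
    rw [mul_pow, ← Real.exp_nat_mul]
    have h5 : Real.exp (-(2 * m * u)) * Real.exp ((2:ℕ) * (m * u)) = 1 := by
      rw [← Real.exp_add]; simp; ring
    have h6 : 0 < Real.exp ((2:ℕ) * (m * u)) := Real.exp_pos _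
    calc ‖g u‖ ^ 2 = (‖g u‖ ^ 2 * Real.exp (-(2 * m * u))) * Real.exp ((2:ℕ) * (m * u)) := by
          rw [mul_assoc, h5, mul_one]
      _ ≤ _ := by gcongr
  exact le_of_sq_le_sq (by simpa using h4) (by positivity)

/-- comparison with the exponential: `g' = α g`, `α` close to `- lam` -/
theorem norm_sub_exp_le {g α : ℝ → ℂ} {U lam ε : ℝ} (hlam : 0 < lam) (hε : 0 < ε)
    (hg : ∀ u ∈ Icc 0 U, HasDerivAt g (α u * g u) u)
    (hα : ∀ u ∈ Icc 0 U, ‖α u + lam‖ ≤ ε * lam) :
    ∀ u ∈ Icc 0 U, ‖g u - g 0 * Real.exp (-(lam * u))‖ ≤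
      ‖g 0‖ * (Real.exp (-((1 - ε) * lam * u)) - Real.exp (-(lam * u))) := by
  intro u hu
  set p : ℝ → ℂ := fun u => g u * ((Real.exp (lam * u) : ℝ) : ℂ) with hp
  have hpd : ∀ v ∈ Icc 0 U, HasDerivAt p ((α v + lam) * p v) v := by
    intro v hv
    have h2 : HasDerivAt (fun u : ℝ => ((Real.exp (lam * u) : ℝ) : ℂ))
        ((Real.exp (lam * v) * (lam * 1) : ℝ) : ℂ) v :=
      (((hasDerivAt_id v).const_mul lam).exp).ofReal_comp
    refine ((hg v hv).mul h2).congr_deriv ?_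
    simp only [hp]
    push_cast
    ring
  have hp0 : p 0 = g 0 := by simp [hp]
  have hgrow := norm_le_exp (g := p) (α := fun u => α u + lam) (U := U) (m := ε * lam) hpd
    (fun v hv => (Complex.re_le_norm _).trans (hα v hv))
  have hdiff : ‖p u - p 0‖ ≤ ‖g 0‖ * (Real.exp (ε * lam * u) - 1) := by
    have := image_norm_le_of_norm_deriv_right_le_deriv_boundary (f := fun u => p u - p 0)
      (f' := fun v => (α v + lam) * p v) (a := 0) (b := U)
      (fun v hv => ((hpd v hv).sub_const _).continuousAt.continuousWithinAt)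
      (fun v hv => ((hpd v (Ico_subset_Icc_self hv)).sub_const _).hasDerivWithinAt)
      (B := fun v => ‖g 0‖ * (Real.exp (ε * lam * v) - 1))
      (B' := fun v => ‖g 0‖ * (Real.exp (ε * lam * v) * (ε * lam * 1))) (by simp)
      (fun v => ((((hasDerivAt_id v).const_mul (ε * lam)).exp).sub_const 1).const_mul _)
      (fun v hv => by
        have hv' := Ico_subset_Icc_self hv
        rw [norm_mul]
        have h3 := hgrow v hv'
        rw [hp0] at h3
        calc ‖α v + lam‖ * ‖p v‖ ≤ (ε * lam) * (‖g 0‖ * Real.exp (ε * lam * v)) :=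
              mul_le_mul (hα v hv') h3 (norm_nonneg _) (by positivity)
          _ = _ := by ring)
      hu
    exact this
  rw [hp0] at hdiff
  have e1 : g u - g 0 * Real.exp (-(lam * u)) = (p u - g 0) * ((Real.exp (-(lam * u)) : ℝ) : ℂ) := by
    simp only [hp]
    have : ((Real.exp (lam * u) : ℝ) : ℂ) * ((Real.exp (-(lam * u)) : ℝ) : ℂ) = 1 := by
      rw [← Complex.ofReal_mul, ← Real.exp_add]; simp
    linear_combination (-(g u)) * this
  rw [e1, norm_mul, Complex.norm_real, Real.norm_of_nonneg (Real.exp_pos _).le]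
  calc ‖p u - g 0‖ * Real.exp (-(lam * u)) ≤
        (‖g 0‖ * (Real.exp (ε * lam * u) - 1)) * Real.exp (-(lam * u)) := by gcongr
    _ = ‖g 0‖ * (Real.exp (ε * lam * u) * Real.exp (-(lam * u)) - Real.exp (-(lam * u))) := by ring
    _ = _ := by rw [← Real.exp_add]; ring_nf

/-- **Horizontal comparison.** `S' = - g`, `g' = α g`, `α` close to `- lam`. -/
theorem horizontal {S g α : ℝ → ℂ} {R lam ε : ℝ} (hR : 0 ≤ R) (hlam : 0 < lam) (hε : 0 < ε)
    (hε8 : ε ≤ 1 / 8) (hexp : Real.exp (-(lam * R)) ≤ 1 / 8)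
    (hS : ∀ u ∈ Icc 0 R, HasDerivAt S (-(g u)) u)
    (hg : ∀ u ∈ Icc 0 R, HasDerivAt g (α u * g u) u)
    (hα : ∀ u ∈ Icc 0 R, ‖α u + lam‖ ≤ ε * lam) :
    ‖g 0‖ / (2 * lam) ≤ ‖S 0 - S R‖ := by
  have hcmp := norm_sub_exp_le hlam hε hg hα
  set T : ℝ → ℂ := fun u => S u - (g 0 / lam) * ((Real.exp (-(lam * u)) : ℝ) : ℂ) with hT
  have hlamC : (lam : ℂ) ≠ 0 := by exact_mod_cast hlam.ne'
  have hTd : ∀ v ∈ Icc 0 R, HasDerivAt T (-(g v - g 0 * Real.exp (-(lam * v)))) v := by
    intro v hv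
    have h2 : HasDerivAt (fun u : ℝ => ((Real.exp (-(lam * u)) : ℝ) : ℂ))
        ((Real.exp (-(lam * v)) * (-(lam * 1)) : ℝ) : ℂ) v :=
      ((((hasDerivAt_id v).const_mul lam).neg).exp).ofReal_comp
    refine ((hS v hv).sub (h2.const_mul (g 0 / lam))).congr_deriv ?_
    push_cast
    field_simp
    ring
  have h1ε : 0 < 1 - ε := by linarith
  have hB := image_norm_le_of_norm_deriv_right_le_deriv_boundary (f := fun u => T u - T 0)
      (f' := fun v => -(g v - g 0 * Real.exp (-(lam * v)))) (a := 0) (b := R)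
      (fun v hv => ((hTd v hv).sub_const _).continuousAt.continuousWithinAt)
      (fun v hv => ((hTd v (Ico_subset_Icc_self hv)).sub_const _).hasDerivWithinAt)
      (B := fun v => ‖g 0‖ * ((1 - Real.exp (-((1 - ε) * lam * v))) / ((1 - ε) * lam) -
        (1 - Real.exp (-(lam * v))) / lam))
      (B' := fun v => ‖g 0‖ * ((-(Real.exp (-((1 - ε) * lam * v)) * (-((1 - ε) * lam * 1)))) /
        ((1 - ε) * lam) - (-(Real.exp (-(lam * v)) * (-(lam * 1)))) / lam)) (by simp)
      (fun v => ((((((hasDerivAt_id v).const_mul ((1 - ε) * lam)).neg).exp).const_sub 1).div_const _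
        |>.sub (((((hasDerivAt_id v).const_mul lam).neg.exp).const_sub 1).div_const _)).const_mul _)
      (fun v hv => by
        have hv' := Ico_subset_Icc_self hv
        rw [norm_neg]
        refine (hcmp v hv').trans (le_of_eq ?_)
        field_simp)
      (right_mem_Icc.2 hR)
  set a1 := Real.exp (-((1 - ε) * lam * R)) with ha1
  set a2 := Real.exp (-(lam * R)) with ha2
  have ha1p : 0 < a1 := Real.exp_pos _
  have ha2p : 0 < a2 := Real.exp_pos _
  have hgp : 0 ≤ ‖g 0‖ := norm_nonneg _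
  have hB2 : ‖T R - T 0‖ ≤ ‖g 0‖ / lam * (1/7 + 1/8) := by
    refine hB.trans ?_
    have e : (1 - a1) / ((1 - ε) * lam) - (1 - a2) / lam ≤ (1 / lam) * (1/7 + 1/8) := by
      have i1 : (1 - a1) / ((1 - ε) * lam) ≤ (1 / lam) * (8/7) := by
        rw [div_le_iff₀ (by positivity)]
        have : (1 / lam) * (8/7) * ((1 - ε) * lam) = (8/7) * (1 - ε) := by field_simp
        rw [this]
        nlinarith
      have i2 : (1 / lam) * (1 - 1/8) ≤ (1 - a2) / lam := by
        rw [div_mul_eq_mul_div, one_mul]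
        gcongr
      have : (1 / lam) * (8/7) - (1/lam) * (1 - 1/8) = (1 / lam) * (1/7 + 1/8) := by ring
      linarith
    calc _ ≤ ‖g 0‖ * ((1 / lam) * (1/7 + 1/8)) := mul_le_mul_of_nonneg_left e hgp
      _ = _ := by ring
  have eS : S 0 - S R = (g 0 / lam) * ((1 - a2 : ℝ) : ℂ) - (T R - T 0) := by
    simp only [hT, mul_zero, neg_zero, Real.exp_zero]
    push_cast
    rw [ha2]
    push_cast
    ring
  have n1 : ‖(g 0 / lam) * ((1 - a2 : ℝ) : ℂ)‖ = ‖g 0‖ / lam * (1 - a2) := by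
    rw [norm_mul, norm_div, Complex.norm_real, Complex.norm_real, Real.norm_of_nonneg hlam.le,
      Real.norm_of_nonneg (by linarith)]
  rw [eS]
  have n2 := norm_sub_norm_le ((g 0 / lam) * ((1 - a2 : ℝ) : ℂ)) (T R - T 0)
  rw [n1] at n2
  have n3 : ‖g 0‖ / lam * (1 - 1/8) ≤ ‖g 0‖ / lam * (1 - a2) := by gcongr
  have n4 : ‖g 0‖ / (2 * lam) = ‖g 0‖ / lam * (1/2) := by ring
  rw [n4]
  have n5 : 0 ≤ ‖g 0‖ / lam := by positivity
  nlinarith

/-- **Ray comparison.** `‖N'‖ ≤ D exp (-κ y)` and `N → 0` imply `‖N 0‖ ≤ D / κ`. -/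
theorem ray {N N' : ℝ → ℂ} {D κ : ℝ} (hκ : 0 < κ)
    (hN : ∀ y, 0 ≤ y → HasDerivAt N (N' y) y)
    (hN' : ∀ y, 0 ≤ y → ‖N' y‖ ≤ D * Real.exp (-(κ * y)))
    (hlim : Tendsto N atTop (𝓝 0)) : ‖N 0‖ ≤ D / κ := by
  have hD : 0 ≤ D := by
    have := (norm_nonneg _).trans (hN' 0 le_rfl)
    simpa using this
  have hb : ∀ Y : ℝ, 0 ≤ Y → ‖N Y - N 0‖ ≤ D / κ := by
    intro Y hY
    have := image_norm_le_of_norm_deriv_right_le_deriv_boundary (f := fun u => N u - N 0)
      (f' := N') (a := 0) (b := Y)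
      (fun v hv => ((hN v hv.1).sub_const _).continuousAt.continuousWithinAt)
      (fun v hv => ((hN v hv.1).sub_const _).hasDerivWithinAt)
      (B := fun v => D / κ * (1 - Real.exp (-(κ * v))))
      (B' := fun v => D / κ * (-(Real.exp (-(κ * v)) * (-(κ * 1))))) (by simp)
      (fun v => ((((hasDerivAt_id v).const_mul κ).neg.exp).const_sub 1).const_mul _)
      (fun v hv => by
        refine (hN' v hv.1).trans (le_of_eq ?_)
        field_simp)
      (right_mem_Icc.2 hY)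
    refine this.trans ?_
    have h1 : 0 < Real.exp (-(κ * Y)) := Real.exp_pos _
    have h2 : 0 ≤ D / κ := by positivity
    nlinarith
  have hlim2 : Tendsto (fun Y => ‖N Y - N 0‖) atTop (𝓝 ‖(0:ℂ) - N 0‖) :=
    (hlim.sub_const _).norm
  have := le_of_tendsto hlim2 (by
    filter_upwards [eventually_ge_atTop 0] with Y hY using hb Y hY)
  simpa using this

end Vale.Agent.P026.H832
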