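import Vale.Agent.P026.H832.A3

/-!
Families of completed `L`-functions `F = G L` with logarithmic conductor `c → ∞`.
-/

open Complex Filter Metric Set Topology

namespace Vale.Agent.P026.H832

variable {ι : Type*}

/-- the logarithmic conductor `log (q (|Im w| + 1))` -/
noncomputable def cc (q : ι → ℝ) (x : ι × ℂ) : ℝ := Real.log (q x.1 * (|x.2.im| + 1))

/-- the filter of points with large conductor -/
noncomputable def big (q : ι → ℝ) : Filter (ι × ℂ) := comap (cc q) atTop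

theorem eventually_big {q : ι → ℝ} {P : ι × ℂ → Prop} :
    (∀ᶠ x in big q, P x) ↔ ∃ C : ℝ, ∀ x, C ≤ cc q x → P x := by
  rw [big, eventually_comap, eventually_atTop]
  constructor
  · rintro ⟨C, hC⟩
    exact ⟨C, fun x hx => hC (cc q x) hx x rfl⟩
  · rintro ⟨C, hC⟩
    exact ⟨C, fun b hb x hx => hC x (hx ▸ hb)⟩

theorem tendsto_cc (q : ι → ℝ) : Tendsto (cc q) (big q) atTop := tendsto_comap

theorem cc_le {q : ι → ℝ} {i : ι} (hq : 1 ≤ q i) (z w : ℂ) :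
    cc q (i, z) ≤ cc q (i, w) + Real.log (1 + ‖z - w‖) := by
  unfold cc
  simp only
  have h0 : 0 < q i := by linarith
  have h1 : |z.im| ≤ |w.im| + ‖z - w‖ := by
    have := Complex.abs_im_le_norm (z - w)
    rw [Complex.sub_im] at this
    have h2 := abs_sub_abs_le_abs_sub z.im w.im
    linarith
  have hn := norm_nonneg (z - w)
  have hw := abs_nonneg w.im
  rw [← Real.log_mul (by positivity) (by positivity)]
  apply Real.log_le_log (by positivity)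
  have : |z.im| + 1 ≤ (|w.im| + 1) * (1 + ‖z - w‖) := by nlinarith
  calc q i * (|z.im| + 1) ≤ q i * ((|w.im| + 1) * (1 + ‖z - w‖)) := by gcongr
    _ = _ := by ring

theorem cc_le' {q : ι → ℝ} {i : ι} (hq : 1 ≤ q i) (z w : ℂ) :
    cc q (i, z) ≤ cc q (i, w) + ‖z - w‖ := by
  refine (cc_le hq z w).trans ?_
  have := Real.log_le_sub_one_of_pos (show 0 < 1 + ‖z - w‖ by positivity)
  linarith

theorem cc_mono {q : ι → ℝ} {i : ι} (hq : 1 ≤ q i) {z w : ℂ} (h : |w.im| ≤ |z.im|) :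
    cc q (i, w) ≤ cc q (i, z) := by
  unfold cc
  simp only
  have h0 : 0 < q i := by linarith
  have hw := abs_nonneg w.im
  apply Real.log_le_log (by positivity)
  gcongr

theorem shift {q : ι → ℝ} (hq : ∀ i, 1 ≤ q i) {P : ι × ℂ → Prop} (h : ∀ᶠ x in big q, P x) (R : ℝ) :
    ∀ᶠ x in big q, ∀ z : ℂ, ‖z - x.2‖ ≤ R → P (x.1, z) := by
  rw [eventually_big] at h ⊢
  obtain ⟨C, hC⟩ := h
  refine ⟨C + R, ?_⟩
  rintro ⟨i, w⟩ hx z hz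
  apply hC
  have := cc_le' (hq i) w z
  rw [norm_sub_rev] at this
  simp only at hz
  linarith

/-- upward monotone: the property holds on all points with a larger imaginary part -/
theorem shift_up {q : ι → ℝ} (hq : ∀ i, 1 ≤ q i) {P : ι × ℂ → Prop} (h : ∀ᶠ x in big q, P x) :
    ∀ᶠ x in big q, ∀ z : ℂ, |x.2.im| ≤ |z.im| → P (x.1, z) := by
  rw [eventually_big] at h ⊢
  obtain ⟨C, hC⟩ := h
  refine ⟨C, ?_⟩
  rintro ⟨i, w⟩ hx z hz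
  apply hC
  exact hx.trans (cc_mono (hq i) hz)

/-- A family of completed `L`-functions. -/
structure LFam (ι : Type*) where
  q : ι → ℝ
  one_le_q : ∀ i, 1 ≤ q i
  F : ι → ℂ → ℂ
  G : ι → ℂ → ℂ
  L : ι → ℂ → ℂ
  a : ι → ℂ → ℂ
  κ : ℝ
  κ_pos : 0 < κ
  A : ℝ
  A_pos : 0 < A
  F_diff : ∀ i, Differentiable ℂ (F i)
  fac : ∀ᶠ x in big q, 1/2 ≤ x.2.re → F x.1 x.2 = G x.1 x.2 * L x.1 x.2
  G_ne : ∀ᶠ x in big q, 1/2 ≤ x.2.re → G x.1 x.2 ≠ 0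
  G_deriv : ∀ᶠ x in big q, 1/2 ≤ x.2.re → HasDerivAt (G x.1) (a x.1 x.2 * G x.1 x.2) x.2
  a_diff : ∀ᶠ x in big q, 1/2 ≤ x.2.re → DifferentiableAt ℂ (a x.1) x.2
  a_re : ∀ᶠ x in big q, 1/2 ≤ x.2.re → cc q x / 2 - A ≤ (a x.1 x.2).re
  a_norm : ∀ᶠ x in big q, 1/2 ≤ x.2.re → x.2.re ≤ 8 → ‖a x.1 x.2 - (cc q x / 2 : ℝ)‖ ≤ A
  a_im : ∀ s : ℝ, s = 1 ∨ s = -1 → ∀ᶠ x in big q, 1/2 ≤ x.2.re → x.2.re ≤ 4 →
    0 ≤ s * x.2.im → 0 ≤ s * (a x.1 x.2).im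
  a_im' : ∀ s : ℝ, s = 1 ∨ s = -1 → ∀ᶠ x in big q, 1/2 ≤ x.2.re → x.2.re ≤ 4 →
    2 ≤ s * x.2.im → κ ≤ s * (a x.1 x.2).im
  L_growth : ∀ᶠ x in big q, 1/2 ≤ x.2.re → x.2.re ≤ 8 → ‖L x.1 x.2‖ ≤ Real.exp (A * (cc q x + 1))
  L_bdd : ∀ᶠ x in big q, 3/2 ≤ x.2.re → ‖L x.1 x.2‖ ≤ A
  L_one : ∀ᶠ x in big q, 2 ≤ x.2.re → ‖L x.1 x.2 - 1‖ ≤ 2/3

theorem diff_iter {f : ℂ → ℂ} (hf : Differentiable ℂ f) (m : ℕ) : Differentiable ℂ (iteratedDeriv m f) :=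
  (hf.contDiff (n := (m + 1 : ℕ))).differentiable_iteratedDeriv m (by exact_mod_cast Nat.lt_succ_self m)

theorem hasDerivAt_iter {f : ℂ → ℂ} (hf : Differentiable ℂ f) (m : ℕ) (w : ℂ) :
    HasDerivAt (iteratedDeriv m f) (iteratedDeriv (m + 1) f w) w := by
  rw [iteratedDeriv_succ]
  exact (diff_iter hf m w).hasDerivAt

namespace LFam

variable (Φ : LFam ι)

/-- the `m`-th derivative divided by the gamma factor -/
noncomputable def kk (m : ℕ) (i : ι) (w : ℂ) : ℂ := iteratedDeriv m (Φ.F i) w / Φ.G i w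

/-- the normalised `m`-th derivative -/
noncomputable def HH (m : ℕ) (i : ι) (w : ℂ) : ℂ := Φ.kk m i w / Φ.a i w ^ m

/-- good points -/
structure Good (x : ι × ℂ) : Prop where
  fac : 1/2 ≤ x.2.re → Φ.F x.1 x.2 = Φ.G x.1 x.2 * Φ.L x.1 x.2
  G_ne : 1/2 ≤ x.2.re → Φ.G x.1 x.2 ≠ 0
  G_deriv : 1/2 ≤ x.2.re → HasDerivAt (Φ.G x.1) (Φ.a x.1 x.2 * Φ.G x.1 x.2) x.2
  a_diff : 1/2 ≤ x.2.re → DifferentiableAt ℂ (Φ.a x.1) x.2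
  a_re : 1/2 ≤ x.2.re → cc Φ.q x / 2 - Φ.A ≤ (Φ.a x.1 x.2).re
  a_norm : 1/2 ≤ x.2.re → x.2.re ≤ 8 → ‖Φ.a x.1 x.2 - (cc Φ.q x / 2 : ℝ)‖ ≤ Φ.A
  L_growth : 1/2 ≤ x.2.re → x.2.re ≤ 8 → ‖Φ.L x.1 x.2‖ ≤ Real.exp (Φ.A * (cc Φ.q x + 1))
  L_bdd : 3/2 ≤ x.2.re → ‖Φ.L x.1 x.2‖ ≤ Φ.A
  L_one : 2 ≤ x.2.re → ‖Φ.L x.1 x.2 - 1‖ ≤ 2/3
  big : 2 * (Φ.A + 1) ≤ cc Φ.q x

theorem good : ∀ᶠ x in big Φ.q, Φ.Good x := by
  filter_upwards [Φ.fac, Φ.G_ne, Φ.G_deriv, Φ.a_diff, Φ.a_re, Φ.a_norm, Φ.L_growth, Φ.L_bdd, Φ.L_one,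
    (tendsto_cc Φ.q).eventually_ge_atTop (2 * (Φ.A + 1))] with x h1 h2 h3 h4 h5 h6 h7 h8 h9 h10
  exact ⟨h1, h2, h3, h4, h5, h6, h7, h8, h9, h10⟩

variable {Φ}

theorem Good.one_le_a {x : ι × ℂ} (h : Φ.Good x) (hx : 1/2 ≤ x.2.re) : 1 ≤ ‖Φ.a x.1 x.2‖ := by
  have h1 := h.a_re hx
  have h2 := h.big
  have h3 := Complex.re_le_norm (Φ.a x.1 x.2)
  linarith

theorem Good.a_ne {x : ι × ℂ} (h : Φ.Good x) (hx : 1/2 ≤ x.2.re) : Φ.a x.1 x.2 ≠ 0 := by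
  have := h.one_le_a hx
  intro h0
  rw [h0, norm_zero] at this
  linarith

theorem Good.kk_deriv {x : ι × ℂ} (h : Φ.Good x) (hx : 1/2 ≤ x.2.re) (m : ℕ) :
    HasDerivAt (Φ.kk m x.1) (Φ.kk (m+1) x.1 x.2 - Φ.a x.1 x.2 * Φ.kk m x.1 x.2) x.2 := by
  have h1 := (hasDerivAt_iter (Φ.F_diff x.1) m x.2).div (h.G_deriv hx) (h.G_ne hx)
  refine h1.congr_deriv ?_
  have := h.G_ne hx
  unfold kk
  field_simp

theorem Good.HH_deriv {x : ι × ℂ} (h : Φ.Good x) (hx : 1/2 ≤ x.2.re) (m : ℕ) :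
    HasDerivAt (Φ.HH m x.1) (Φ.a x.1 x.2 * Φ.HH (m+1) x.1 x.2 - Φ.a x.1 x.2 * Φ.HH m x.1 x.2 -
      m * (deriv (Φ.a x.1) x.2 / Φ.a x.1 x.2) * Φ.HH m x.1 x.2) x.2 := by
  have ha := h.a_ne hx
  have h1 := (h.kk_deriv hx m).div ((h.a_diff hx).hasDerivAt.pow m) (pow_ne_zero m ha)
  refine h1.congr_deriv ?_
  unfold HH
  rcases m with _ | m
  · simp
    field_simp
  · simp only [Nat.add_sub_cancel, Pi.pow_apply]
    field_simp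
    ring

end LFam

end Vale.Agent.P026.H832
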