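import Vale.Agent.P026.H832.A4

/-!
Growth in the strip, and behaviour far to the right.
-/

open Complex Filter Metric Set Topology

namespace Vale.Agent.P026.H832

namespace LFam

variable {ι : Type*} (Φ : LFam ι)

theorem kk_growth (m : ℕ) : ∀ α β : ℝ, 1/2 < α → β < 8 → ∃ A' : ℝ, 0 < A' ∧
    ∀ᶠ x in big Φ.q, α ≤ x.2.re → x.2.re ≤ β → ‖Φ.kk m x.1 x.2‖ ≤ Real.exp (A' * (cc Φ.q x + 1)) := by
  induction m with
  | zero =>
    intro α β hα hβ
    refine ⟨Φ.A, Φ.A_pos, ?_⟩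
    filter_upwards [Φ.good] with x hx h1 h2
    have h3 : 1/2 ≤ x.2.re := by linarith
    have : Φ.kk 0 x.1 x.2 = Φ.L x.1 x.2 := by
      unfold kk
      rw [iteratedDeriv_zero, hx.fac h3, mul_div_cancel_left₀ _ (hx.G_ne h3)]
    rw [this]
    exact hx.L_growth h3 (by linarith)
  | succ m ih =>
    intro α β hα hβ
    set r : ℝ := min ((α - 1/2) / 2) ((8 - β) / 2) with hr
    have hr0 : 0 < r := lt_min (by linarith) (by linarith)
    have hr1 : r ≤ (α - 1/2) / 2 := min_le_left _ _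
    have hr2 : r ≤ (8 - β) / 2 := min_le_right _ _
    obtain ⟨A', hA', hev⟩ := ih (α - r) (β + r) (by linarith) (by linarith)
    refine ⟨A' * (1 + r) + 1 / r + 1 + Φ.A, by have := Φ.A_pos; positivity, ?_⟩
    filter_upwards [Φ.good, shift Φ.one_le_q hev r, shift Φ.one_le_q Φ.good r] with x hx hxs hg h1 h2
    have h3 : 1/2 ≤ x.2.re := by linarith
    have hcc : 0 ≤ cc Φ.q x := by have := hx.big; have := Φ.A_pos; linarith
    have hre : ∀ z : ℂ, ‖z - x.2‖ ≤ r → x.2.re - r ≤ z.re ∧ z.re ≤ x.2.re + r := by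
      intro z hz
      have := (Complex.abs_re_le_norm (z - x.2)).trans hz
      rw [Complex.sub_re, abs_le] at this
      constructor <;> linarith [this.1, this.2]
    have hcz : ∀ z : ℂ, ‖z - x.2‖ ≤ r → cc Φ.q (x.1, z) ≤ cc Φ.q x + r := by
      intro z hz
      have := cc_le' (Φ.one_le_q x.1) z x.2
      linarith
    -- Cauchy
    set E : ℝ := Real.exp (A' * (1 + r) * (cc Φ.q x + 1)) with hE
    have hbd : ∀ z ∈ sphere x.2 r, ‖Φ.kk m x.1 z‖ ≤ E := by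
      intro z hz
      rw [mem_sphere, dist_eq_norm] at hz
      have h4 := hre z hz.le
      refine (hxs z hz.le (by linarith [h4.1]) (by linarith [h4.2])).trans ?_
      rw [hE]
      apply Real.exp_le_exp.2
      have := hcz z hz.le
      have h5 : A' * (cc Φ.q (x.1, z) + 1) ≤ A' * (cc Φ.q x + r + 1) := by gcongr
      have h6 : A' * (cc Φ.q x + r + 1) ≤ A' * (1 + r) * (cc Φ.q x + 1) := by
        have : A' * (1 + r) * (cc Φ.q x + 1) - A' * (cc Φ.q x + r + 1) = A' * (r * cc Φ.q x) := by ring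
        have : 0 ≤ A' * (r * cc Φ.q x) := by positivity
        linarith
      linarith
    have hd : ∀ z ∈ closedBall x.2 r, DifferentiableAt ℂ (Φ.kk m x.1) z := by
      intro z hz
      rw [mem_closedBall, dist_eq_norm] at hz
      have h4 := hre z hz
      exact ((hg z hz).kk_deriv (by simp only; linarith [h4.1]) m).differentiableAt
    have hder := Complex.norm_deriv_le_of_forall_mem_sphere_norm_le (f := Φ.kk m x.1) (c := x.2) hr0
      (C := E) (by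
        apply DifferentiableOn.diffContOnCl
        rw [closure_ball _ hr0.ne']
        exact fun z hz => (hd z hz).differentiableWithinAt) hbd
    have hk := (hx.kk_deriv h3 m).deriv
    have hself := hxs x.2 (by simpa using hr0.le) (by linarith) (by linarith)
    have ha : ‖Φ.a x.1 x.2‖ ≤ cc Φ.q x / 2 + Φ.A := by
      have := hx.a_norm h3 (by linarith)
      have h7 : Φ.a x.1 x.2 = (Φ.a x.1 x.2 - (cc Φ.q x / 2 : ℝ)) + (cc Φ.q x / 2 : ℝ) := by ring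
      rw [h7]
      refine (norm_add_le _ _).trans ?_
      rw [Complex.norm_real, Real.norm_of_nonneg (by linarith)]
      linarith
    have hE1 : 1 ≤ E := Real.one_le_exp (by positivity)
    have e1 : Φ.kk (m+1) x.1 x.2 = deriv (Φ.kk m x.1) x.2 + Φ.a x.1 x.2 * Φ.kk m x.1 x.2 := by
      rw [hk]; ring
    have hself' : ‖Φ.kk m x.1 x.2‖ ≤ E := by
      refine hself.trans ?_
      rw [hE]
      apply Real.exp_le_exp.2
      show A' * (cc Φ.q x + 1) ≤ _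
      have : A' * (1 + r) * (cc Φ.q x + 1) - A' * (cc Φ.q x + 1) = A' * r * (cc Φ.q x + 1) := by ring
      have : 0 ≤ A' * r * (cc Φ.q x + 1) := by positivity
      linarith
    have hAp := Φ.A_pos
    calc ‖Φ.kk (m+1) x.1 x.2‖ ≤ ‖deriv (Φ.kk m x.1) x.2‖ + ‖Φ.a x.1 x.2‖ * ‖Φ.kk m x.1 x.2‖ := by
          rw [e1]; refine (norm_add_le _ _).trans ?_; rw [norm_mul]
      _ ≤ E / r + (cc Φ.q x / 2 + Φ.A) * E := by gcongr
      _ = (1 / r + cc Φ.q x / 2 + Φ.A) * E := by ring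
      _ ≤ Real.exp ((1 / r + 1 + Φ.A) * (cc Φ.q x + 1)) * E := by
          gcongr
          have h8 := Real.add_one_le_exp ((1 / r + 1 + Φ.A) * (cc Φ.q x + 1))
          have h9 : (1 / r + 1 + Φ.A) * (cc Φ.q x + 1) =
            1 / r + Φ.A + cc Φ.q x + 1 + (1 / r + Φ.A) * cc Φ.q x := by ring
          have h10 : 0 ≤ (1 / r + Φ.A) * cc Φ.q x := by positivity
          linarith
      _ = Real.exp ((A' * (1 + r) + 1 / r + 1 + Φ.A) * (cc Φ.q x + 1)) := by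
          rw [hE, ← Real.exp_add]; ring_nf

theorem kk_zero : ∀ᶠ x in big Φ.q, 1/2 ≤ x.2.re → Φ.kk 0 x.1 x.2 = Φ.L x.1 x.2 := by
  filter_upwards [Φ.good] with x hx h3
  unfold kk
  rw [iteratedDeriv_zero, hx.fac h3, mul_div_cancel_left₀ _ (hx.G_ne h3)]

/-- `1 / a` is small -/
theorem inv_a_small (δ : ℝ) (hδ : 0 < δ) :
    ∀ᶠ x in big Φ.q, 1/2 ≤ x.2.re → ‖(Φ.a x.1 x.2)⁻¹‖ ≤ δ := by
  filter_upwards [Φ.good, (tendsto_cc Φ.q).eventually_ge_atTop (2 * (Φ.A + δ⁻¹))] with x hx hc h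
  rw [norm_inv]
  have h1 := hx.a_re h
  have h2 := Complex.re_le_norm (Φ.a x.1 x.2)
  have h3 : δ⁻¹ ≤ ‖Φ.a x.1 x.2‖ := by linarith
  have h4 : 0 < δ⁻¹ := by positivity
  calc ‖Φ.a x.1 x.2‖⁻¹ ≤ (δ⁻¹)⁻¹ := inv_anti₀ h4 h3
    _ = δ := inv_inv δ

theorem HH_far (m : ℕ) : ∀ r : ℝ, 0 < r → ∀ ε : ℝ, 0 < ε →
    ∀ᶠ x in big Φ.q, 3/2 + r ≤ x.2.re → ‖Φ.HH m x.1 x.2 - Φ.L x.1 x.2‖ ≤ ε := by
  induction m with
  | zero =>
    intro r hr ε hε
    filter_upwards [Φ.kk_zero] with x hx h1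
    have : Φ.HH 0 x.1 x.2 = Φ.L x.1 x.2 := by
      unfold HH; rw [pow_zero, div_one]; exact hx (by linarith)
    rw [this, sub_self, norm_zero]; exact hε.le
  | succ m ih =>
    intro r hr ε hε
    have hAp := Φ.A_pos
    -- choose δ
    set δ : ℝ := ε / (2 * ((Φ.A + 1) * (2 / r) + m * 2 * (Φ.A + 1) + 1)) with hδ
    have hδ0 : 0 < δ := by positivity
    have ih1 := ih (r/2) (by linarith) 1 one_pos
    have ih2 := ih r hr (ε/2) (by linarith)
    filter_upwards [Φ.good, shift Φ.one_le_q Φ.good (r/2), shift Φ.one_le_q ih1 (r/2), ih2,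
      shift Φ.one_le_q (Φ.inv_a_small δ hδ0) (1/2), shift Φ.one_le_q Φ.good (1/2)] with
      x hx hg h1 h2 h3 hg2 hre
    have hx12 : 1/2 ≤ x.2.re := by linarith
    have hrez : ∀ ρ : ℝ, ∀ z : ℂ, ‖z - x.2‖ ≤ ρ → x.2.re - ρ ≤ z.re := by
      intro ρ z hz
      have := (Complex.abs_re_le_norm (z - x.2)).trans hz
      rw [Complex.sub_re, abs_le] at this
      linarith [this.1]
    have hHb : ∀ z : ℂ, ‖z - x.2‖ ≤ r/2 → ‖Φ.HH m x.1 z‖ ≤ Φ.A + 1 := by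
      intro z hz
      have h4 := hrez _ z hz
      have h5 := h1 z hz (by linarith)
      have h6 := (hg z hz).L_bdd (by simp only; linarith)
      calc ‖Φ.HH m x.1 z‖ = ‖(Φ.HH m x.1 z - Φ.L x.1 z) + Φ.L x.1 z‖ := by ring_nf
        _ ≤ _ := norm_add_le _ _
        _ ≤ Φ.A + 1 := by simp only at h5 h6; linarith
    have hHd := Complex.norm_deriv_le_of_forall_mem_sphere_norm_le (f := Φ.HH m x.1) (c := x.2)
      (R := r/2) (C := Φ.A + 1) (by linarith) (by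
        apply DifferentiableOn.diffContOnCl
        rw [closure_ball _ (by linarith : r/2 ≠ 0)]
        intro z hz
        rw [mem_closedBall, dist_eq_norm] at hz
        have h4 := hrez _ z hz
        exact ((hg z hz).HH_deriv (by simp only; linarith) m).differentiableAt.differentiableWithinAt)
      (fun z hz => by
        rw [mem_sphere, dist_eq_norm] at hz
        exact hHb z hz.le)
    have hbd := Complex.norm_deriv_le_of_forall_mem_sphere_norm_le (f := fun z => (Φ.a x.1 z)⁻¹)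
      (c := x.2) (R := 1/2) (C := δ) (by norm_num) (by
        apply DifferentiableOn.diffContOnCl
        rw [closure_ball _ (by norm_num : (1/2:ℝ) ≠ 0)]
        intro z hz
        rw [mem_closedBall, dist_eq_norm] at hz
        have h4 := hrez _ z hz
        have h5 := hg2 z hz
        exact ((h5.a_diff (by simp only; linarith)).inv
          (h5.a_ne (by simp only; linarith))).differentiableWithinAt)
      (fun z hz => by
        rw [mem_sphere, dist_eq_norm] at hz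
        have h4 := hrez _ z hz.le
        exact h3 z hz.le (by linarith))
    have hinv : HasDerivAt (fun z => (Φ.a x.1 z)⁻¹)
        (-(deriv (Φ.a x.1) x.2) / (Φ.a x.1 x.2) ^ 2) x.2 :=
      (hx.a_diff hx12).hasDerivAt.inv (hx.a_ne hx12)
    rw [hinv.deriv] at hbd
    rw [(hx.HH_deriv hx12 m).deriv] at hHd
    have ha := hx.a_ne hx12
    have hai : ‖(Φ.a x.1 x.2)⁻¹‖ ≤ δ := h3 x.2 (by simp) hx12
    have hself : ‖Φ.HH m x.1 x.2‖ ≤ Φ.A + 1 := hHb x.2 (by simpa using (by linarith : 0 ≤ r / 2))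
    have e1 : Φ.HH (m+1) x.1 x.2 - Φ.L x.1 x.2 = (Φ.HH m x.1 x.2 - Φ.L x.1 x.2) +
        (Φ.a x.1 x.2)⁻¹ * (Φ.a x.1 x.2 * Φ.HH (m+1) x.1 x.2 - Φ.a x.1 x.2 * Φ.HH m x.1 x.2 -
          m * (deriv (Φ.a x.1) x.2 / Φ.a x.1 x.2) * Φ.HH m x.1 x.2) -
        m * (-(deriv (Φ.a x.1) x.2) / (Φ.a x.1 x.2) ^ 2) * Φ.HH m x.1 x.2 := by
      field_simp
      ring
    rw [e1]
    have n1 := norm_sub_le ((Φ.HH m x.1 x.2 - Φ.L x.1 x.2) +
        (Φ.a x.1 x.2)⁻¹ * (Φ.a x.1 x.2 * Φ.HH (m+1) x.1 x.2 - Φ.a x.1 x.2 * Φ.HH m x.1 x.2 -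
          m * (deriv (Φ.a x.1) x.2 / Φ.a x.1 x.2) * Φ.HH m x.1 x.2))
        (m * (-(deriv (Φ.a x.1) x.2) / (Φ.a x.1 x.2) ^ 2) * Φ.HH m x.1 x.2)
    have n2 := norm_add_le (Φ.HH m x.1 x.2 - Φ.L x.1 x.2)
        ((Φ.a x.1 x.2)⁻¹ * (Φ.a x.1 x.2 * Φ.HH (m+1) x.1 x.2 - Φ.a x.1 x.2 * Φ.HH m x.1 x.2 -
          m * (deriv (Φ.a x.1) x.2 / Φ.a x.1 x.2) * Φ.HH m x.1 x.2))
    have n3 : ‖(Φ.a x.1 x.2)⁻¹ * (Φ.a x.1 x.2 * Φ.HH (m+1) x.1 x.2 - Φ.a x.1 x.2 * Φ.HH m x.1 x.2 -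
          m * (deriv (Φ.a x.1) x.2 / Φ.a x.1 x.2) * Φ.HH m x.1 x.2)‖ ≤ δ * ((Φ.A + 1) / (r / 2)) := by
      rw [norm_mul]
      gcongr
    have n4 : ‖(m:ℂ) * (-(deriv (Φ.a x.1) x.2) / (Φ.a x.1 x.2) ^ 2) * Φ.HH m x.1 x.2‖ ≤
        m * (δ / (1/2)) * (Φ.A + 1) := by
      rw [norm_mul, norm_mul, Complex.norm_natCast]
      gcongr
    have n5 := h2 hre
    have n6 : δ * ((Φ.A + 1) / (r / 2)) + m * (δ / (1/2)) * (Φ.A + 1) ≤ ε / 2 := by
      have e2 : δ * ((Φ.A + 1) / (r / 2)) + m * (δ / (1/2)) * (Φ.A + 1) =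
          δ * ((Φ.A + 1) * (2 / r) + m * 2 * (Φ.A + 1)) := by field_simp
      rw [e2, hδ]
      have h7 : 0 < (Φ.A + 1) * (2 / r) + m * 2 * (Φ.A + 1) + 1 := by positivity
      rw [div_mul_eq_mul_div, div_le_div_iff₀ (by positivity) (by norm_num)]
      nlinarith
    linarith

/-- bounds for the normalised derivative in `Re ≥ 2` -/
theorem HH_bounds (m : ℕ) : ∀ᶠ x in big Φ.q, 2 ≤ x.2.re →
    1/6 ≤ ‖Φ.HH m x.1 x.2‖ ∧ ‖Φ.HH m x.1 x.2‖ ≤ 11/6 := by
  filter_upwards [Φ.good, Φ.HH_far m (1/2) (by norm_num) (1/6) (by norm_num)] with x hx h h2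
  have h3 := h (by linarith)
  have h4 := hx.L_one h2
  have h5 : ‖Φ.HH m x.1 x.2 - 1‖ ≤ 5/6 := by
    calc ‖Φ.HH m x.1 x.2 - 1‖ = ‖(Φ.HH m x.1 x.2 - Φ.L x.1 x.2) + (Φ.L x.1 x.2 - 1)‖ := by ring_nf
      _ ≤ _ := norm_add_le _ _
      _ ≤ 5/6 := by linarith
  constructor
  · have := norm_sub_norm_le (1:ℂ) (1 - Φ.HH m x.1 x.2)
    rw [norm_one, norm_sub_rev 1 (Φ.HH m x.1 x.2)] at this
    have e : (1:ℂ) - (1 - Φ.HH m x.1 x.2) = Φ.HH m x.1 x.2 := by ring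
    rw [e] at this
    linarith
  · calc ‖Φ.HH m x.1 x.2‖ = ‖(Φ.HH m x.1 x.2 - 1) + 1‖ := by ring_nf
      _ ≤ _ := norm_add_le _ _
      _ ≤ 11/6 := by rw [norm_one]; linarith

theorem ne_zero_right (m : ℕ) : ∀ᶠ x in big Φ.q, 2 ≤ x.2.re → iteratedDeriv m (Φ.F x.1) x.2 ≠ 0 := by
  filter_upwards [Φ.HH_bounds m] with x h h2 h0
  have := (h h2).1
  unfold HH kk at this
  rw [h0] at this
  simp at this
  linarith

end LFam

end Vale.Agent.P026.H832
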