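import Vale.Agent.P026.H832.A5

/-!
Tameness of the derivatives in a zero-free half plane.
-/

open Complex Filter Metric Set Topology

namespace Vale.Agent.P026.H832

namespace LFam

variable {ι : Type*} (Φ : LFam ι)

/-- the `m`-th derivatives have no zeros with real part `≥ σ > σ0` and large conductor -/
def NZ (m : ℕ) (σ0 : ℝ) : Prop :=
  ∀ σ : ℝ, σ0 < σ → ∀ᶠ x in big Φ.q, σ ≤ x.2.re → iteratedDeriv m (Φ.F x.1) x.2 ≠ 0

/-- ratio bound near the centre -/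
theorem kk_ratio (m : ℕ) : ∃ C : ℝ, 0 < C ∧ ∀ᶠ x in big Φ.q, x.2.re = 3 →
    ∀ z ∈ ball x.2 1, ‖Φ.kk m x.1 z‖ ≤ Real.exp C * ‖Φ.kk m x.1 x.2‖ := by
  have hAp := Φ.A_pos
  refine ⟨Real.log (11 * 2 ^ m), Real.log_pos (by
    have : (1:ℝ) ≤ 2 ^ m := one_le_pow₀ (by norm_num)
    linarith), ?_⟩
  filter_upwards [Φ.good, shift Φ.one_le_q Φ.good 1, shift Φ.one_le_q (Φ.HH_bounds m) 1,
    (tendsto_cc Φ.q).eventually_ge_atTop (2 * (3 * Φ.A + 1))] with x hx hg hb hc h3 z hz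
  rw [mem_ball, dist_eq_norm] at hz
  have hzre : 2 ≤ z.re ∧ z.re ≤ 4 := by
    have := (Complex.abs_re_le_norm (z - x.2)).trans hz.le
    rw [Complex.sub_re, abs_le] at this
    constructor <;> linarith [this.1, this.2]
  have hgz := hg z hz.le
  have hbz := hb z hz.le (by linarith)
  have hbx := hb x.2 (by simp) (by linarith)
  have hcz := cc_le' (Φ.one_le_q x.1) z x.2
  have az : ‖Φ.a x.1 z‖ ≤ cc Φ.q x / 2 + 1/2 + Φ.A := by
    have h5 := hgz.a_norm (by simp only; linarith) (by simp only; linarith)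
    have h7 : Φ.a x.1 z = (Φ.a x.1 z - (cc Φ.q (x.1, z) / 2 : ℝ)) + (cc Φ.q (x.1, z) / 2 : ℝ) := by
      ring
    rw [h7]
    refine (norm_add_le _ _).trans ?_
    have h8 := hgz.big
    rw [Complex.norm_real, Real.norm_of_nonneg (by linarith)]
    have : cc Φ.q (x.1, x.2) = cc Φ.q x := rfl
    linarith
  have ax : cc Φ.q x / 2 - Φ.A ≤ ‖Φ.a x.1 x.2‖ :=
    (hx.a_re (by linarith)).trans (Complex.re_le_norm _)
  have hrat : ‖Φ.a x.1 z‖ ≤ 2 * ‖Φ.a x.1 x.2‖ := by linarith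
  have e1 : Φ.kk m x.1 z = Φ.a x.1 z ^ m * Φ.HH m x.1 z := by
    unfold HH
    have := hgz.a_ne (by simp only; linarith)
    field_simp
  have e2 : Φ.kk m x.1 x.2 = Φ.a x.1 x.2 ^ m * Φ.HH m x.1 x.2 := by
    unfold HH
    have := hx.a_ne (by linarith)
    field_simp
  rw [Real.exp_log (by positivity), e1, e2, norm_mul, norm_mul, norm_pow, norm_pow]
  have p1 : ‖Φ.a x.1 z‖ ^ m ≤ (2 * ‖Φ.a x.1 x.2‖) ^ m := by gcongr
  calc ‖Φ.a x.1 z‖ ^ m * ‖Φ.HH m x.1 z‖ ≤ (2 * ‖Φ.a x.1 x.2‖) ^ m * (11/6) := by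
        gcongr
        exact hbz.2
    _ = 11 * 2 ^ m * (‖Φ.a x.1 x.2‖ ^ m * (1/6)) := by rw [mul_pow]; ring
    _ ≤ 11 * 2 ^ m * (‖Φ.a x.1 x.2‖ ^ m * ‖Φ.HH m x.1 x.2‖) := by
        gcongr
        exact hbx.1

/-- size at the centre -/
theorem kk_centre (m : ℕ) (ε : ℝ) (hε : 0 < ε) : ∀ᶠ x in big Φ.q, x.2.re = 3 →
    1/6 ≤ ‖Φ.kk m x.1 x.2‖ ∧ ‖Φ.kk m x.1 x.2‖ ≤ Real.exp (ε * cc Φ.q x) := by
  have hAp := Φ.A_pos
  have hlim : Tendsto (fun c : ℝ => c ^ m * Real.exp (-(ε * c))) atTop (𝓝 0) := by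
    have := tendsto_rpow_mul_exp_neg_mul_atTop_nhds_zero (m : ℝ) ε hε
    refine this.congr (fun c => ?_)
    rw [Real.rpow_natCast, neg_mul]
  have hlim2 : ∀ᶠ c : ℝ in atTop, c ^ m * Real.exp (-(ε * c)) ≤ 6/11 :=
    hlim.eventually (eventually_le_nhds (by norm_num))
  filter_upwards [Φ.good, Φ.HH_bounds m, (tendsto_cc Φ.q).eventually hlim2,
    (tendsto_cc Φ.q).eventually_ge_atTop (2 * Φ.A)] with x hx hb hl hc h3
  have hbx := hb (by linarith)
  have e2 : Φ.kk m x.1 x.2 = Φ.a x.1 x.2 ^ m * Φ.HH m x.1 x.2 := by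
    unfold HH
    have := hx.a_ne (by linarith)
    field_simp
  have a1 := hx.one_le_a (by linarith)
  have a2 : ‖Φ.a x.1 x.2‖ ≤ cc Φ.q x := by
    have h5 := hx.a_norm (by linarith) (by linarith)
    have h7 : Φ.a x.1 x.2 = (Φ.a x.1 x.2 - (cc Φ.q x / 2 : ℝ)) + (cc Φ.q x / 2 : ℝ) := by ring
    rw [h7]
    refine (norm_add_le _ _).trans ?_
    rw [Complex.norm_real, Real.norm_of_nonneg (by linarith)]
    linarith
  rw [e2, norm_mul, norm_pow]
  constructor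
  · calc (1/6 : ℝ) = 1 * (1/6) := by ring
      _ ≤ ‖Φ.a x.1 x.2‖ ^ m * ‖Φ.HH m x.1 x.2‖ :=
        mul_le_mul (one_le_pow₀ a1) hbx.1 (by norm_num) (by positivity)
  · have h8 : ‖Φ.a x.1 x.2‖ ^ m * ‖Φ.HH m x.1 x.2‖ ≤ cc Φ.q x ^ m * (11/6) := by
      have : ‖Φ.a x.1 x.2‖ ^ m ≤ cc Φ.q x ^ m := by gcongr
      exact mul_le_mul this hbx.2 (norm_nonneg _) ((pow_nonneg (norm_nonneg _) m).trans this)
    refine h8.trans ?_
    have h9 : cc Φ.q x ^ m * Real.exp (-(ε * cc Φ.q x)) * Real.exp (ε * cc Φ.q x) = cc Φ.q x ^ m := by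
      rw [mul_assoc, ← Real.exp_add]; simp
    rw [← h9]
    have h10 := Real.exp_pos (ε * cc Φ.q x)
    nlinarith

theorem six_le_exp_two : (6:ℝ) ≤ Real.exp 2 := by
  have h11 := Real.exp_one_gt_d9
  have h12 : Real.exp 2 = Real.exp 1 * Real.exp 1 := by rw [← Real.exp_add]; norm_num
  rw [h12]
  nlinarith

set_option maxHeartbeats 1000000 in
/-- **Tameness of the derivatives in a zero-free region.** -/
theorem tame (m : ℕ) {σ0 : ℝ} (h0 : 1/2 ≤ σ0) (h1 : σ0 < 2) (hNZ : Φ.NZ m σ0) :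
    ∀ σ : ℝ, σ0 < σ → ∀ ε : ℝ, 0 < ε → ∀ᶠ x in big Φ.q, σ ≤ x.2.re → x.2.re ≤ 3 →
      ‖deriv (Φ.kk m x.1) x.2‖ ≤ ε * cc Φ.q x * ‖Φ.kk m x.1 x.2‖ ∧
      ‖Φ.kk m x.1 x.2‖ ≤ Real.exp (ε * cc Φ.q x) ∧ Real.exp (-(ε * cc Φ.q x)) ≤ ‖Φ.kk m x.1 x.2‖ := by
  intro σ hσ ε hε
  have hAp := Φ.A_pos
  set σt : ℝ := min σ 2 with hσt
  have b1 : σ0 < σt := lt_min hσ h1
  have b2 : σt ≤ 2 := min_le_right _ _
  have b3 : σt ≤ σ := min_le_left _ _
  set σ' : ℝ := (σ0 + σt) / 2 with hσ'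
  have b4 : σ0 < σ' := by rw [hσ']; linarith
  have b5 : σ' < σt := by rw [hσ']; linarith
  set ρ : ℝ := 3 - σt with hρ
  set R : ℝ := 3 - σ' with hR
  have b6 : 1 ≤ ρ := by linarith
  have b7 : ρ < R := by linarith
  have b8 : R < 5/2 := by linarith
  obtain ⟨B, hB, θ, hθ0, hθ1, H⟩ := tame_single b6 b7
  obtain ⟨A', hA', hgr⟩ := Φ.kk_growth m σ' 7 (by linarith) (by norm_num)
  obtain ⟨C, hC, hrat⟩ := Φ.kk_ratio m
  -- the constant in front of c
  set c1 : ℝ := 5 * A' + 2 with hc1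
  have hc1p : 0 < c1 := by positivity
  have hT : ∀ᶠ c : ℝ in atTop, B * (C ^ (1 - θ) * (c1 * c) ^ θ) ≤ ε / 3 * c := by
    have hlim : Tendsto (fun c : ℝ => c ^ (-(1 - θ))) atTop (𝓝 0) :=
      tendsto_rpow_neg_atTop (by linarith)
    have hK : 0 < B * C ^ (1 - θ) * c1 ^ θ + 1 := by positivity
    have hlim2 : ∀ᶠ c : ℝ in atTop, c ^ (-(1 - θ)) ≤ ε / 3 / (B * C ^ (1 - θ) * c1 ^ θ + 1) :=
      hlim.eventually (eventually_le_nhds (by positivity))
    filter_upwards [hlim2, eventually_gt_atTop 0] with c h2 hc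
    have e : c ^ θ = c ^ (-(1 - θ)) * c := by
      rw [← Real.rpow_add_one hc.ne']; congr 1; ring
    rw [Real.mul_rpow hc1p.le hc.le, e]
    rw [le_div_iff₀ hK] at h2
    have h3 : 0 ≤ c ^ (-(1 - θ)) := by positivity
    have h4 : B * C ^ (1 - θ) * c1 ^ θ * c ^ (-(1 - θ)) ≤ ε / 3 := by nlinarith
    calc B * (C ^ (1 - θ) * (c1 ^ θ * (c ^ (-(1 - θ)) * c))) =
        (B * C ^ (1 - θ) * c1 ^ θ * c ^ (-(1 - θ))) * c := by ring
      _ ≤ ε / 3 * c := by gcongr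
  -- all conditions on the disc of radius 6
  filter_upwards [shift Φ.one_le_q Φ.good 6, shift Φ.one_le_q hgr 6,
    shift Φ.one_le_q hrat 6, shift Φ.one_le_q (Φ.kk_centre m (ε/3) (by linarith)) 6,
    shift Φ.one_le_q (hNZ σ' b4) 6, (tendsto_cc Φ.q).eventually hT,
    (tendsto_cc Φ.q).eventually_ge_atTop (1 + 3 / ε)] with x hg hgr' hrat' hcen hnz hTx hcx hx1 hx2
  set c := cc Φ.q x with hc
  have hcpos : 1 ≤ c := by
    have : 0 ≤ 3 / ε := by positivity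
    linarith
  set z0 : ℂ := ⟨3, x.2.im⟩ with hz0
  have hz0re : z0.re = 3 := rfl
  have hz0im : z0.im = x.2.im := rfl
  have hcz0 : cc Φ.q (x.1, z0) = c := by rw [hc]; unfold cc; simp only [hz0im]
  have hxz : ‖x.2 - z0‖ = 3 - x.2.re := by
    have : x.2 - z0 = ((x.2.re - 3 : ℝ) : ℂ) := by
      apply Complex.ext <;> simp [hz0re, hz0im]
    rw [this, Complex.norm_real, Real.norm_eq_abs, abs_of_nonpos (by linarith)]
    ring
  have hz0x : ‖z0 - x.2‖ ≤ 6 := by rw [norm_sub_rev, hxz]; linarith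
  have hnear : ∀ z ∈ ball z0 R, ‖z - x.2‖ ≤ 6 := by
    intro z hz
    rw [mem_ball, dist_eq_norm] at hz
    calc ‖z - x.2‖ = ‖(z - z0) + (z0 - x.2)‖ := by ring_nf
      _ ≤ ‖z - z0‖ + ‖z0 - x.2‖ := norm_add_le _ _
      _ ≤ 6 := by rw [norm_sub_rev z0, hxz]; linarith
  have hre : ∀ z ∈ ball z0 R, σ' ≤ z.re ∧ z.re ≤ 7 := by
    intro z hz
    rw [mem_ball, dist_eq_norm] at hz
    have := (Complex.abs_re_le_norm (z - z0)).trans hz.le
    rw [Complex.sub_re, abs_le, hz0re] at this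
    constructor <;> linarith [this.1, this.2]
  have hcz : ∀ z ∈ ball z0 R, cc Φ.q (x.1, z) ≤ c + 3 := by
    intro z hz
    rw [mem_ball, dist_eq_norm] at hz
    have := cc_le' (Φ.one_le_q x.1) z z0
    rw [hcz0] at this
    linarith
  obtain ⟨hcen1, hcen2⟩ := hcen z0 hz0x hz0re

  rw [hcz0] at hcen2
  have key := H (Φ.kk m x.1) z0 (c1 * c) C hC (by positivity) ?_ ?_ ?_ ?_ x.2 (by
    rw [mem_closedBall, dist_eq_norm, hxz]; linarith)
  · obtain ⟨k1, k2, k3⟩ := key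
    have hTx' : B * (C ^ (1 - θ) * (c1 * c) ^ θ) ≤ ε / 3 * c := hTx
    refine ⟨?_, ?_, ?_⟩
    · have h30 : 0 ≤ ε * c := by positivity
      exact k1.trans (mul_le_mul_of_nonneg_right (hTx'.trans (by linarith)) (norm_nonneg _))
    · refine k2.trans ?_
      calc Real.exp (B * (C ^ (1 - θ) * (c1 * c) ^ θ)) * ‖Φ.kk m x.1 z0‖ ≤
          Real.exp (ε / 3 * c) * Real.exp (ε / 3 * c) := by gcongr
        _ = Real.exp (2 * (ε / 3 * c)) := by rw [← Real.exp_add]; ring_nf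
        _ ≤ Real.exp (ε * c) := by
          apply Real.exp_le_exp.2
          have : 0 ≤ ε * c := by positivity
          linarith
    · have k4 : 1/6 ≤ Real.exp (ε / 3 * c) * ‖Φ.kk m x.1 x.2‖ :=
        hcen1.trans (k3.trans (by gcongr))
      have k5 : Real.exp (-(ε * c)) = Real.exp (-(ε / 3 * c)) * Real.exp (-(2 * (ε / 3 * c))) := by
        rw [← Real.exp_add]; ring_nf
      have k6 : Real.exp (-(2 * (ε / 3 * c))) ≤ 1/6 := by
        have h7 : 1 ≤ ε / 3 * c := by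
          have : 1 + 3 / ε ≤ c := hcx
          have h8 : 3 / ε ≤ c := by linarith
          rw [div_le_iff₀ hε] at h8
          linarith
        have h9 : Real.exp (-(2 * (ε / 3 * c))) ≤ Real.exp (-2) := Real.exp_le_exp.2 (by linarith)
        have h10 : Real.exp (-2) ≤ 1/6 := by
          rw [Real.exp_neg, ← one_div]
          exact one_div_le_one_div_of_le (by norm_num) six_le_exp_two
        linarith
      rw [k5]
      have e3 : Real.exp (-(ε / 3 * c)) * Real.exp (ε / 3 * c) = 1 := by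
        rw [← Real.exp_add]; simp
      calc Real.exp (-(ε / 3 * c)) * Real.exp (-(2 * (ε / 3 * c))) ≤
          Real.exp (-(ε / 3 * c)) * (1/6) := by gcongr
        _ ≤ Real.exp (-(ε / 3 * c)) * (Real.exp (ε / 3 * c) * ‖Φ.kk m x.1 x.2‖) := by gcongr
        _ = ‖Φ.kk m x.1 x.2‖ := by rw [← mul_assoc, e3, one_mul]
  · intro z hz
    have := (hg z (hnear z hz)).kk_deriv (by simp only; linarith [(hre z hz).1]) m
    exact this.differentiableAt.differentiableWithinAt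
  · intro z hz
    have h3 := hnz z (hnear z hz) (hre z hz).1
    have h4 := (hg z (hnear z hz)).G_ne (by simp only; linarith [(hre z hz).1])
    exact div_ne_zero h3 h4
  · intro z hz
    have h3 := hgr' z (hnear z hz) (hre z hz).1 (hre z hz).2
    have h4 := hcz z hz
    refine h3.trans ?_
    have h5 : Real.exp (c1 * c) * (1/6) ≤ Real.exp (c1 * c) * ‖Φ.kk m x.1 z0‖ := by gcongr
    refine le_trans ?_ h5
    have h6 : (6:ℝ) ≤ Real.exp 2 := six_le_exp_two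
    have h7 : A' * (cc Φ.q (x.1, z) + 1) ≤ c1 * c - 2 := by
      calc A' * (cc Φ.q (x.1, z) + 1) ≤ A' * (c + 3 + 1) := by gcongr
        _ ≤ c1 * c - 2 := by
          have h31 : c1 * c - 2 - A' * (c + 3 + 1) = (4 * A' + 2) * (c - 1) := by rw [hc1]; ring
          have h32 : 0 ≤ (4 * A' + 2) * (c - 1) := mul_nonneg (by positivity) (by linarith)
          linarith
    calc Real.exp (A' * (cc Φ.q (x.1, z) + 1)) ≤ Real.exp (c1 * c - 2) := Real.exp_le_exp.2 h7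
      _ = Real.exp (c1 * c) / Real.exp 2 := Real.exp_sub _ _
      _ ≤ Real.exp (c1 * c) / 6 := by gcongr
      _ = _ := by ring
  · intro z hz
    exact hrat' z0 hz0x hz0re z hz

end LFam

end Vale.Agent.P026.H832
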