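import Vale.Agent.P026.H832.A6

/-!
The two steps: from `F^(m)` to `F^(m+1)` and back.
-/

open Complex Filter Metric Set Topology

namespace Vale.Agent.P026.H832

namespace LFam

variable {ι : Type*} (Φ : LFam ι)

/-- up: from the `m`-th to the `(m+1)`-st derivative -/
theorem step_up (m : ℕ) {σ0 : ℝ} (h0 : 1/2 ≤ σ0) (h1 : σ0 < 2) (hNZ : Φ.NZ m σ0) : Φ.NZ (m+1) σ0 := by
  intro σ hσ
  have hAp := Φ.A_pos
  filter_upwards [Φ.good, Φ.ne_zero_right (m+1), Φ.tame m h0 h1 hNZ σ hσ (1/8) (by norm_num),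
    hNZ σ hσ, (tendsto_cc Φ.q).eventually_ge_atTop (4 * Φ.A + 1)] with x hx hr ht hnz hc h3
  rcases le_or_gt 2 x.2.re with h4 | h4
  · exact hr h4
  have h5 : 1/2 ≤ x.2.re := by linarith
  obtain ⟨t1, -, -⟩ := ht h3 (by linarith)
  have hkne : Φ.kk m x.1 x.2 ≠ 0 := div_ne_zero (hnz h3) (hx.G_ne h5)
  have hk := (hx.kk_deriv h5 m).deriv
  intro h6
  have h7 : Φ.kk (m+1) x.1 x.2 = 0 := by unfold kk; rw [h6, zero_div]
  rw [hk, h7, zero_sub, norm_neg, norm_mul] at t1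
  have h8 : 0 < ‖Φ.kk m x.1 x.2‖ := norm_pos_iff.2 hkne
  have h9 := le_of_mul_le_mul_right t1 h8
  have h10 := (hx.a_re h5).trans (Complex.re_le_norm _)
  linarith

/-- decay of the gamma factor on a vertical ray -/
theorem G_ray : ∀ᶠ x in big Φ.q, ∀ s : ℝ, s = 1 ∨ s = -1 → 1/2 ≤ x.2.re → x.2.re ≤ 4 →
    0 ≤ s * x.2.im → ∀ y : ℝ, 0 ≤ y →
    ‖Φ.G x.1 (x.2 + (s * y : ℝ) * I)‖ ≤
      ‖Φ.G x.1 x.2‖ * (Real.exp (2 * Φ.κ) * Real.exp (-(Φ.κ * y))) := by
  have hκ := Φ.κ_pos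
  have hmain : ∀ s : ℝ, (s = 1 ∨ s = -1) → ∀ᶠ x in big Φ.q, 1/2 ≤ x.2.re → x.2.re ≤ 4 →
    0 ≤ s * x.2.im → ∀ y : ℝ, 0 ≤ y →
    ‖Φ.G x.1 (x.2 + (s * y : ℝ) * I)‖ ≤
      ‖Φ.G x.1 x.2‖ * (Real.exp (2 * Φ.κ) * Real.exp (-(Φ.κ * y))) := by
    intro s hs
    have hss : s * s = 1 := by rcases hs with rfl | rfl <;> norm_num
    have hsabs : |s| = 1 := by rcases hs with rfl | rfl <;> norm_num
    filter_upwards [shift_up Φ.one_le_q Φ.good, shift_up Φ.one_le_q (Φ.a_im s hs),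
      shift_up Φ.one_le_q (Φ.a_im' s hs)] with x hg him him' h1 h2 h3 y hy
    -- the imaginary parts on the ray
    have himz : ∀ y : ℝ, (x.2 + (s * y : ℝ) * I).im = x.2.im + s * y := by
      intro y; simp
    have hrez : ∀ y : ℝ, (x.2 + (s * y : ℝ) * I).re = x.2.re := by
      intro y; simp
    have hsim : ∀ y : ℝ, s * (x.2.im + s * y) = s * x.2.im + y := by
      intro y; linear_combination y * hss
    have habs : ∀ y : ℝ, 0 ≤ y → |x.2.im| ≤ |(x.2 + (s * y : ℝ) * I).im| := by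
      intro y hy
      rw [himz]
      have e1 : |x.2.im| = |s * x.2.im| := by rw [abs_mul, hsabs, one_mul]
      have e2 : |x.2.im + s * y| = |s * (x.2.im + s * y)| := by rw [abs_mul, hsabs, one_mul]
      rw [e1, e2, hsim, abs_of_nonneg h3, abs_of_nonneg (by linarith)]
      linarith
    have hder : ∀ y : ℝ, 0 ≤ y → HasDerivAt (fun y : ℝ => Φ.G x.1 (x.2 + (s * y : ℝ) * I))
        ((s * I * Φ.a x.1 (x.2 + (s * y : ℝ) * I)) * Φ.G x.1 (x.2 + (s * y : ℝ) * I)) y := by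
      intro y hy
      have hG := (hg _ (habs y hy)).G_deriv (by simp only; rw [hrez]; exact h1)
      have hin : HasDerivAt (fun y : ℝ => x.2 + ((s * y : ℝ) : ℂ) * I) (s * I) y := by
        have h5 : HasDerivAt (fun y : ℝ => ((s * y : ℝ) : ℂ)) ((s * 1 : ℝ) : ℂ) y :=
          ((hasDerivAt_id y).const_mul s).ofReal_comp
        have h6 := (h5.mul_const I).const_add x.2
        simpa using h6
      have := HasDerivAt.scomp y hG hin
      refine this.congr_deriv ?_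
      simp only [smul_eq_mul]
      ring
    have hre : ∀ y : ℝ, (s * I * Φ.a x.1 (x.2 + (s * y : ℝ) * I)).re =
        - (s * (Φ.a x.1 (x.2 + (s * y : ℝ) * I)).im) := by
      intro y
      simp
    -- first part : no growth
    have hno : ∀ y : ℝ, 0 ≤ y → ‖Φ.G x.1 (x.2 + (s * y : ℝ) * I)‖ ≤ ‖Φ.G x.1 x.2‖ := by
      intro y hy
      have := norm_le_exp (g := fun y : ℝ => Φ.G x.1 (x.2 + (s * y : ℝ) * I))
        (α := fun y => s * I * Φ.a x.1 (x.2 + (s * y : ℝ) * I)) (U := y) (m := 0)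
        (fun u hu => hder u hu.1) (fun u hu => by
          rw [hre]
          have := him _ (habs u hu.1) (by rw [hrez]; exact h1)
            (by rw [hrez]; exact h2)
            (by rw [himz, hsim]; linarith [hu.1])
          linarith) y ⟨hy, le_rfl⟩
      simpa using this
    rcases le_or_gt y 2 with hy2 | hy2
    · refine (hno y hy).trans ?_
      have h7 : 1 ≤ Real.exp (2 * Φ.κ) * Real.exp (-(Φ.κ * y)) := by
        rw [← Real.exp_add]
        apply Real.one_le_exp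
        nlinarith
      have h8 := norm_nonneg (Φ.G x.1 x.2)
      nlinarith
    · -- second part, starting from height 2
      have h9 := norm_le_exp (g := fun u : ℝ => Φ.G x.1 (x.2 + (s * (2 + u) : ℝ) * I))
        (α := fun u => s * I * Φ.a x.1 (x.2 + (s * (2 + u) : ℝ) * I)) (U := y - 2) (m := -Φ.κ)
        (fun u hu => by
          have := (hder (2 + u) (by linarith [hu.1])).comp_const_add 2 u
          exact this) (fun u hu => by
          rw [hre]
          have := him' _ (habs (2 + u) (by linarith [hu.1])) (by rw [hrez]; exact h1)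
            (by rw [hrez]; exact h2)
            (by rw [himz, hsim]; linarith [hu.1])
          linarith) (y - 2) ⟨by linarith, le_rfl⟩
      simp only [add_zero] at h9
      have e : (2 : ℝ) + (y - 2) = y := by ring
      rw [e] at h9
      have h10 := hno 2 (by norm_num)
      calc ‖Φ.G x.1 (x.2 + (s * y : ℝ) * I)‖ ≤
          ‖Φ.G x.1 (x.2 + (s * 2 : ℝ) * I)‖ * Real.exp (-Φ.κ * (y - 2)) := h9
        _ ≤ ‖Φ.G x.1 x.2‖ * Real.exp (-Φ.κ * (y - 2)) := by gcongr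
        _ = _ := by rw [← Real.exp_add]; ring_nf
  filter_upwards [hmain 1 (Or.inl rfl), hmain (-1) (Or.inr rfl)] with x h1 h2 s hs
  rcases hs with rfl | rfl
  · exact h1
  · exact h2

/-- **vertical step**: bound for the `m`-th derivative from the tameness of the `(m+1)`-st -/
theorem vertical (m : ℕ) {σ0 : ℝ} (h0 : 1/2 ≤ σ0) (h1 : σ0 < 2) (hNZ : Φ.NZ (m+1) σ0)
    {σ1 ε : ℝ} (hσ : σ0 < σ1) (hσ3 : σ1 ≤ 3) (hε : 0 < ε) (hεκ : ε ≤ Φ.κ / 2) :
    ∀ᶠ x in big Φ.q, x.2.re = σ1 → ‖iteratedDeriv m (Φ.F x.1) x.2‖ ≤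
      ‖Φ.G x.1 x.2‖ * (Real.exp (2 * Φ.κ) * Real.exp (ε * cc Φ.q x)) / (Φ.κ / 2) := by
  have hκ := Φ.κ_pos
  obtain ⟨A', hA', hgr⟩ := Φ.kk_growth m σ1 3 (by linarith) (by norm_num)
  filter_upwards [Φ.G_ray, shift_up Φ.one_le_q Φ.good, shift_up Φ.one_le_q hgr,
    shift_up Φ.one_le_q (Φ.tame (m+1) h0 h1 hNZ σ1 hσ ε hε)] with x hG hg hgr' ht hre
  -- the direction
  obtain ⟨s, hs, hsx⟩ : ∃ s : ℝ, (s = 1 ∨ s = -1) ∧ 0 ≤ s * x.2.im := by
    rcases le_total 0 x.2.im with h | h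
    · exact ⟨1, Or.inl rfl, by linarith⟩
    · exact ⟨-1, Or.inr rfl, by linarith⟩
  have hss : s * s = 1 := by rcases hs with rfl | rfl <;> norm_num
  have hsabs : |s| = 1 := by rcases hs with rfl | rfl <;> norm_num
  have himz : ∀ y : ℝ, (x.2 + (s * y : ℝ) * I).im = x.2.im + s * y := by
    intro y; simp
  have hrez : ∀ y : ℝ, (x.2 + (s * y : ℝ) * I).re = x.2.re := by
    intro y; simp
  have hsim : ∀ y : ℝ, s * (x.2.im + s * y) = s * x.2.im + y := by
    intro y; linear_combination y * hss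
  have habs : ∀ y : ℝ, 0 ≤ y → |x.2.im| ≤ |(x.2 + (s * y : ℝ) * I).im| := by
    intro y hy
    rw [himz]
    have e1 : |x.2.im| = |s * x.2.im| := by rw [abs_mul, hsabs, one_mul]
    have e2 : |x.2.im + s * y| = |s * (x.2.im + s * y)| := by rw [abs_mul, hsabs, one_mul]
    rw [e1, e2, hsim, abs_of_nonneg hsx, abs_of_nonneg (by linarith)]
    linarith
  have hdist : ∀ y : ℝ, 0 ≤ y → ‖x.2 + (s * y : ℝ) * I - x.2‖ = y := by
    intro y hy
    rw [add_sub_cancel_left, norm_mul, Complex.norm_I, mul_one, Complex.norm_real, Real.norm_eq_abs,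
      abs_mul, hsabs, one_mul, abs_of_nonneg hy]
  have hGr := hG s hs (by linarith) (by linarith) hsx
  -- growth of the (m+1)-st derivative
  set E : ℝ := Real.exp (2 * Φ.κ) with hE
  have hder : ∀ y : ℝ, 0 ≤ y → HasDerivAt
      (fun y : ℝ => iteratedDeriv m (Φ.F x.1) (x.2 + (s * y : ℝ) * I))
      (s * I * iteratedDeriv (m+1) (Φ.F x.1) (x.2 + (s * y : ℝ) * I)) y := by
    intro y hy
    have hin : HasDerivAt (fun y : ℝ => x.2 + ((s * y : ℝ) : ℂ) * I) (s * I) y := by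
      have h5 : HasDerivAt (fun y : ℝ => ((s * y : ℝ) : ℂ)) ((s * 1 : ℝ) : ℂ) y :=
        ((hasDerivAt_id y).const_mul s).ofReal_comp
      have h6 := (h5.mul_const I).const_add x.2
      simpa using h6
    have := HasDerivAt.scomp y (hasDerivAt_iter (Φ.F_diff x.1) m (x.2 + (s * y : ℝ) * I)) hin
    exact this
  have hFk : ∀ n : ℕ, ∀ y : ℝ, 0 ≤ y → ‖iteratedDeriv n (Φ.F x.1) (x.2 + (s * y : ℝ) * I)‖ =
      ‖Φ.G x.1 (x.2 + (s * y : ℝ) * I)‖ * ‖Φ.kk n x.1 (x.2 + (s * y : ℝ) * I)‖ := by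
    intro n y hy
    have hne := (hg _ (habs y hy)).G_ne (by simp only; rw [hrez]; linarith)
    simp only at hne
    unfold kk
    rw [norm_div, mul_div_cancel₀ _ (norm_ne_zero_iff.2 hne)]
  have hbound : ∀ y : ℝ, 0 ≤ y →
      ‖s * I * iteratedDeriv (m+1) (Φ.F x.1) (x.2 + (s * y : ℝ) * I)‖ ≤
      (‖Φ.G x.1 x.2‖ * (E * Real.exp (ε * cc Φ.q x))) * Real.exp (-(Φ.κ / 2 * y)) := by
    intro y hy
    rw [norm_mul, norm_mul, Complex.norm_I, mul_one, Complex.norm_real, Real.norm_eq_abs, hsabs,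
      one_mul, hFk (m+1) y hy]
    have hk := (ht _ (habs y hy) (by rw [hrez]; linarith)
      (by rw [hrez]; linarith)).2.1
    have hc := cc_le' (Φ.one_le_q x.1) (x.2 + (s * y : ℝ) * I) x.2
    rw [hdist y hy] at hc
    have hc2 : cc Φ.q (x.1, x.2) = cc Φ.q x := rfl
    rw [hc2] at hc
    have hk2 : ‖Φ.kk (m+1) x.1 (x.2 + (s * y : ℝ) * I)‖ ≤
        Real.exp (ε * cc Φ.q x) * Real.exp (Φ.κ / 2 * y) := by
      refine hk.trans ?_
      rw [← Real.exp_add]
      apply Real.exp_le_exp.2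
      nlinarith
    calc ‖Φ.G x.1 (x.2 + (s * y : ℝ) * I)‖ * ‖Φ.kk (m+1) x.1 (x.2 + (s * y : ℝ) * I)‖ ≤
        (‖Φ.G x.1 x.2‖ * (E * Real.exp (-(Φ.κ * y)))) *
          (Real.exp (ε * cc Φ.q x) * Real.exp (Φ.κ / 2 * y)) :=
          mul_le_mul (hGr y hy) hk2 (norm_nonneg _) (by positivity)
      _ = (‖Φ.G x.1 x.2‖ * (E * Real.exp (ε * cc Φ.q x))) *
          (Real.exp (-(Φ.κ * y)) * Real.exp (Φ.κ / 2 * y)) := by ring
      _ = _ := by rw [← Real.exp_add (-(Φ.κ * y))]; ring_nf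
  have hlim : Tendsto (fun y : ℝ => iteratedDeriv m (Φ.F x.1) (x.2 + (s * y : ℝ) * I)) atTop (𝓝 0) := by
    rw [tendsto_zero_iff_norm_tendsto_zero]
    -- comparison function
    set D : ℝ := ‖Φ.G x.1 x.2‖ * E * Real.exp (A' * (cc Φ.q x + 1)) with hD
    have hcmp : Tendsto (fun y : ℝ => D * ((1 + y) ^ A' * Real.exp (-(Φ.κ * y)))) atTop (𝓝 0) := by
      have h7 := tendsto_rpow_mul_exp_neg_mul_atTop_nhds_zero A' Φ.κ hκ
      have h8 : Tendsto (fun y : ℝ => 1 + y) atTop atTop := tendsto_atTop_add_const_left _ _ tendsto_id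
      have h9 := h7.comp h8
      have h10 := (h9.const_mul (D * Real.exp Φ.κ))
      rw [mul_zero] at h10
      refine h10.congr (fun y => ?_)
      simp only [Function.comp]
      have : Real.exp (-Φ.κ * (1 + y)) = Real.exp (-Φ.κ) * Real.exp (-(Φ.κ * y)) := by
        rw [← Real.exp_add]; ring_nf
      rw [this]
      have h11 : Real.exp Φ.κ * Real.exp (-Φ.κ) = 1 := by rw [← Real.exp_add]; simp
      linear_combination (D * (1 + y) ^ A' * Real.exp (-(Φ.κ * y))) * h11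
    refine squeeze_zero' (Eventually.of_forall fun y => norm_nonneg _) ?_ hcmp
    filter_upwards [eventually_ge_atTop 0] with y hy
    rw [hFk m y hy]
    have hk := hgr' _ (habs y hy) (by rw [hrez]; linarith) (by rw [hrez]; linarith)
    have hc := cc_le (Φ.one_le_q x.1) (x.2 + (s * y : ℝ) * I) x.2
    rw [hdist y hy] at hc
    have hc2 : cc Φ.q (x.1, x.2) = cc Φ.q x := rfl
    rw [hc2] at hc
    have h1y : 0 < 1 + y := by linarith
    have hk2 : ‖Φ.kk m x.1 (x.2 + (s * y : ℝ) * I)‖ ≤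
        Real.exp (A' * (cc Φ.q x + 1)) * (1 + y) ^ A' := by
      refine hk.trans ?_
      rw [Real.rpow_def_of_pos h1y, ← Real.exp_add]
      apply Real.exp_le_exp.2
      nlinarith
    calc ‖Φ.G x.1 (x.2 + (s * y : ℝ) * I)‖ * ‖Φ.kk m x.1 (x.2 + (s * y : ℝ) * I)‖ ≤
        (‖Φ.G x.1 x.2‖ * (E * Real.exp (-(Φ.κ * y)))) *
          (Real.exp (A' * (cc Φ.q x + 1)) * (1 + y) ^ A') :=
          mul_le_mul (hGr y hy) hk2 (norm_nonneg _) (by positivity)
      _ = _ := by rw [hD]; ring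
  have := ray (by linarith : 0 < Φ.κ / 2) hder hbound hlim
  simpa using this

end LFam

end Vale.Agent.P026.H832
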