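import Vale.Agent.P026.H832.B9

/-!
A Gaussian average over a vertical segment.
-/

open Complex Filter Metric Set Topology MeasureTheory
open scoped Real

namespace Vale.Agent.P026.H832

lemma norm_gauss (z x : ℂ) :
    ‖Complex.exp ((z - x) ^ 2)‖ = Real.exp ((z.re - x.re) ^ 2 - (z.im - x.im) ^ 2) := by
  rw [Complex.norm_exp]
  congr 1
  rw [sq, Complex.mul_re, Complex.sub_re, Complex.sub_im]
  ring

/-- **Gaussian average.** -/
theorem gauss_avg {f : ℂ → ℂ} {x : ℂ} {H D E V : ℝ} (hH : 1 ≤ H) (hx0 : -1 ≤ x.re) (hx2 : x.re ≤ 2)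
    (hf : ∀ z : ℂ, -1 ≤ z.re → z.re ≤ x.re → |z.im - x.im| ≤ H → DifferentiableAt ℂ f z)
    (hD : ∀ z : ℂ, z.re = -1 → |z.im - x.im| ≤ H → ‖f z‖ ≤ D)
    (hE : ∀ z : ℂ, -1 ≤ z.re → z.re ≤ x.re → |z.im - x.im| = H → ‖f z‖ ≤ E)
    (hE1 : E * Real.exp (9 - H ^ 2) ≤ 1)
    (hV : ∀ z : ℂ, z.re = x.re → |z.im - x.im| ≤ H → ‖f z - f x‖ ≤ V) :
    ‖f x‖ ≤ 4 * H * Real.exp 9 * D + 12 + 4 * H * V := by
  have hD0 : 0 ≤ D := (norm_nonneg _).trans (hD ⟨-1, x.im⟩ rfl (by simp; linarith))
  have hV0 : 0 ≤ V := (norm_nonneg _).trans (hV x rfl (by simp; linarith))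
  set h : ℂ → ℂ := fun z => f z * Complex.exp ((z - x) ^ 2) with hh
  set z0 : ℂ := ⟨-1, x.im - H⟩ with hz0
  set w0 : ℂ := ⟨x.re, x.im + H⟩ with hw0
  have hdiff : DifferentiableOn ℂ h (uIcc z0.re w0.re ×ℂ uIcc z0.im w0.im) := by
    intro z hz
    rw [mem_reProdIm, uIcc_of_le (show z0.re ≤ w0.re from hx0),
      uIcc_of_le (show z0.im ≤ w0.im by simp only [hz0, hw0]; linarith)] at hz
    have h1 : -1 ≤ z.re := hz.1.1
    have h2 : z.re ≤ x.re := hz.1.2
    have h3 : x.im - H ≤ z.im := hz.2.1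
    have h4 : z.im ≤ x.im + H := hz.2.2
    have h5 := hf z h1 h2 (by rw [abs_le]; constructor <;> linarith)
    exact (h5.mul (by fun_prop)).differentiableWithinAt
  have hcau := Complex.integral_boundary_rect_eq_zero_of_differentiableOn h z0 w0 hdiff
  simp only [hz0, hw0] at hcau
  set I1 := ∫ t : ℝ in (-1)..x.re, h (t + ((x.im - H : ℝ) : ℂ) * I) with hI1
  set I2 := ∫ t : ℝ in (-1)..x.re, h (t + ((x.im + H : ℝ) : ℂ) * I) with hI2
  set I3 := ∫ y : ℝ in (x.im - H)..(x.im + H), h (x.re + y * I) with hI3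
  set I4 := ∫ y : ℝ in (x.im - H)..(x.im + H), h (((-1 : ℝ) : ℂ) + y * I) with hI4
  have b1 : ∀ s : ℝ, |s - x.im| = H → ‖∫ t : ℝ in (-1)..x.re, h (t + (s : ℂ) * I)‖ ≤ 3 := by
    intro s hs
    have := intervalIntegral.norm_integral_le_of_norm_le_const (a := -1) (b := x.re) (C := 1)
      (f := fun t : ℝ => h (t + (s : ℂ) * I)) (fun t ht => by
        rw [uIoc_of_le hx0] at ht
        have e1 : ((t : ℂ) + (s : ℂ) * I).re = t := by simp
        have e2 : ((t : ℂ) + (s : ℂ) * I).im = s := by simp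
        have h1 := hE (t + (s : ℂ) * I) (by rw [e1]; exact ht.1.le) (by rw [e1]; exact ht.2)
          (by rw [e2]; exact hs)
        simp only [hh]
        rw [norm_mul, norm_gauss, e1, e2]
        have h2 : Real.exp ((t - x.re) ^ 2 - (s - x.im) ^ 2) ≤ Real.exp (9 - H ^ 2) := by
          apply Real.exp_le_exp.2
          have h3 : (s - x.im) ^ 2 = H ^ 2 := by rw [← hs, sq_abs]
          rw [h3]
          have h4 : -1 < t := ht.1
          have h5 : t ≤ x.re := ht.2
          nlinarith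
        calc ‖f (t + (s : ℂ) * I)‖ * Real.exp ((t - x.re) ^ 2 - (s - x.im) ^ 2) ≤
            E * Real.exp (9 - H ^ 2) := by
              gcongr
              exact (norm_nonneg _).trans h1
          _ ≤ 1 := hE1)
    refine this.trans ?_
    rw [one_mul, abs_of_nonneg (by linarith)]
    linarith
  have c1 : ‖I1‖ ≤ 3 := b1 _ (by
    rw [sub_sub_cancel_left, abs_neg, abs_of_nonneg (by linarith)])
  have c2 : ‖I2‖ ≤ 3 := b1 _ (by
    rw [add_sub_cancel_left, abs_of_nonneg (by linarith)])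
  have c4 : ‖I4‖ ≤ 2 * H * Real.exp 9 * D := by
    have := intervalIntegral.norm_integral_le_of_norm_le_const (a := x.im - H) (b := x.im + H)
      (C := D * Real.exp 9)
      (f := fun y : ℝ => h (((-1 : ℝ) : ℂ) + (y : ℂ) * I)) (fun y hy => by
        rw [uIoc_of_le (by linarith)] at hy
        have e1 : (((-1 : ℝ) : ℂ) + (y : ℂ) * I).re = -1 := by simp
        have e2 : (((-1 : ℝ) : ℂ) + (y : ℂ) * I).im = y := by simp
        have h1 := hD (((-1 : ℝ) : ℂ) + (y : ℂ) * I) e1 (by
          rw [e2, abs_le]; constructor <;> linarith [hy.1, hy.2])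
        simp only [hh]
        rw [norm_mul, norm_gauss, e1, e2]
        have h2 : Real.exp ((-1 - x.re) ^ 2 - (y - x.im) ^ 2) ≤ Real.exp 9 := by
          apply Real.exp_le_exp.2
          have h3 := sq_nonneg (y - x.im)
          nlinarith
        gcongr)
    refine this.trans (le_of_eq ?_)
    rw [add_sub_sub_cancel, abs_of_nonneg (by linarith)]
    ring
  -- the weight
  set W : ℝ := ∫ y : ℝ in (x.im - H)..(x.im + H), Real.exp (-(y - x.im) ^ 2) with hW
  have hWge : 1/2 ≤ W := by
    have hcont : Continuous fun y : ℝ => Real.exp (-(y - x.im) ^ 2) := by fun_prop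
    have h1 : ∫ y : ℝ in (x.im - 1)..(x.im + 1), Real.exp (-(y - x.im) ^ 2) ≤ W := by
      refine intervalIntegral.integral_mono_interval (by linarith) (by linarith) (by linarith) ?_
        (hcont.intervalIntegrable _ _)
      exact Eventually.of_forall fun y => (Real.exp_pos _).le
    have h2 : ∫ y : ℝ in (x.im - 1)..(x.im + 1), (Real.exp (-1)) ≤
        ∫ y : ℝ in (x.im - 1)..(x.im + 1), Real.exp (-(y - x.im) ^ 2) := by
      refine intervalIntegral.integral_mono_on (by linarith) (by simp)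
        (hcont.intervalIntegrable _ _) fun y hy => ?_
      apply Real.exp_le_exp.2
      nlinarith [hy.1, hy.2]
    rw [intervalIntegral.integral_const, add_sub_sub_cancel, smul_eq_mul] at h2
    have h3 : (1/4 : ℝ) ≤ Real.exp (-1) := by
      rw [Real.exp_neg, ← one_div]
      apply one_div_le_one_div_of_le (Real.exp_pos _)
      have := Real.exp_one_lt_d9
      linarith
    linarith
  have hcont3 : IntervalIntegrable (fun y : ℝ => h (x.re + y * I)) volume (x.im - H) (x.im + H) := by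
    refine ContinuousOn.intervalIntegrable fun y hy => ?_
    rw [uIcc_of_le (by linarith)] at hy
    have e1 : ((x.re : ℂ) + (y : ℂ) * I).re = x.re := by simp
    have e2 : ((x.re : ℂ) + (y : ℂ) * I).im = y := by simp
    have h1 := hf ((x.re : ℂ) + (y : ℂ) * I) (by rw [e1]; exact hx0) (by rw [e1]) (by
      rw [e2, abs_le]; constructor <;> linarith [hy.1, hy.2])
    have h2 : ContinuousAt h ((x.re : ℂ) + (y : ℂ) * I) :=
      (h1.mul (by fun_prop : DifferentiableAt ℂ (fun z : ℂ => Complex.exp ((z - x) ^ 2)) _)).continuousAt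
    have h3 : ContinuousAt (fun y : ℝ => (x.re : ℂ) + (y : ℂ) * I) y := by fun_prop
    exact (ContinuousAt.comp (f := fun y : ℝ => (x.re : ℂ) + (y : ℂ) * I) h2 h3).continuousWithinAt
  have c3 : ‖I3 - f x * (W : ℂ)‖ ≤ 2 * H * V := by
    have e0 : f x * (W : ℂ) = ∫ y : ℝ in (x.im - H)..(x.im + H),
        f x * ((Real.exp (-(y - x.im) ^ 2) : ℝ) : ℂ) := by
      rw [intervalIntegral.integral_const_mul, hW, intervalIntegral.integral_ofReal]
    have hcont5 : IntervalIntegrable (fun y : ℝ => f x * ((Real.exp (-(y - x.im) ^ 2) : ℝ) : ℂ))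
        volume (x.im - H) (x.im + H) := by
      apply Continuous.intervalIntegrable
      fun_prop
    rw [e0, hI3, ← intervalIntegral.integral_sub hcont3 hcont5]
    have := intervalIntegral.norm_integral_le_of_norm_le_const (a := x.im - H) (b := x.im + H)
      (C := V)
      (f := fun y : ℝ => h (x.re + (y : ℂ) * I) - f x * ((Real.exp (-(y - x.im) ^ 2) : ℝ) : ℂ))
      (fun y hy => by
        rw [uIoc_of_le (by linarith)] at hy
        have e1 : ((x.re : ℂ) + (y : ℂ) * I).re = x.re := by simp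
        have e2 : ((x.re : ℂ) + (y : ℂ) * I).im = y := by simp
        have h1 := hV ((x.re : ℂ) + (y : ℂ) * I) e1 (by
          rw [e2, abs_le]; constructor <;> linarith [hy.1, hy.2])
        have e3 : Complex.exp (((x.re : ℂ) + (y : ℂ) * I - x) ^ 2) =
            ((Real.exp (-(y - x.im) ^ 2) : ℝ) : ℂ) := by
          rw [Complex.ofReal_exp]
          congr 1
          have e4 : (x.re : ℂ) + (y : ℂ) * I - x = ((y - x.im : ℝ) : ℂ) * I := by
            apply Complex.ext <;> simp
          rw [e4, mul_pow, I_sq]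
          push_cast
          ring
        simp only [hh]
        rw [e3, ← sub_mul, norm_mul, Complex.norm_real, Real.norm_of_nonneg (Real.exp_pos _).le]
        have h2 : Real.exp (-(y - x.im) ^ 2) ≤ 1 := Real.exp_le_one_iff.2 (by
          have := sq_nonneg (y - x.im); linarith)
        calc ‖f ((x.re : ℂ) + (y : ℂ) * I) - f x‖ * Real.exp (-(y - x.im) ^ 2) ≤ V * 1 := by
              gcongr
          _ = V := mul_one V)
    refine this.trans (le_of_eq ?_)
    rw [add_sub_sub_cancel, abs_of_nonneg (by linarith)]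
    ring
  -- conclusion
  have hI3' : ‖I3‖ ≤ ‖I1‖ + ‖I2‖ + ‖I4‖ := by
    have e1 : I * I3 = I2 - I1 + I * I4 := by
      have h1 : I1 - I2 + I * I3 - I * I4 = 0 := by
        simpa [smul_eq_mul] using hcau
      linear_combination h1
    have h2 : ‖I3‖ = ‖I * I3‖ := by rw [norm_mul, Complex.norm_I, one_mul]
    rw [h2, e1]
    refine (norm_add_le _ _).trans ?_
    rw [norm_mul, Complex.norm_I, one_mul]
    have := norm_sub_le I2 I1
    linarith
  have hfin : ‖f x‖ * W ≤ 3 + 3 + 2 * H * Real.exp 9 * D + 2 * H * V := by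
    have h1 : ‖f x * (W : ℂ)‖ ≤ ‖I3‖ + ‖I3 - f x * (W : ℂ)‖ := by
      have := norm_sub_le I3 (I3 - f x * (W : ℂ))
      rwa [sub_sub_cancel] at this
    rw [norm_mul, Complex.norm_real, Real.norm_of_nonneg (by linarith)] at h1
    linarith
  have h2 : ‖f x‖ * (1/2) ≤ ‖f x‖ * W := by gcongr
  linarith

end Vale.Agent.P026.H832
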