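import Vale.Agent.P026.H832.B10

/-!
The vertical bound for `ζ(1 - w)`, and the theorem on the zeros of the derivatives of `ζ` on the
left.
-/

open Complex Filter Metric Set Topology P026.H725
open scoped Real

namespace Vale.Agent.P026.H832

lemma two_mul_le_exp (c : ℝ) : 2 * c ≤ Real.exp c := by
  have h1 := Real.add_one_le_exp (c - 1)
  have h2 : Real.exp c = Real.exp 1 * Real.exp (c - 1) := by rw [← Real.exp_add]; ring_nf
  have h3 : (2:ℝ) ≤ Real.exp 1 := by
    have := Real.add_one_le_exp (1:ℝ); linarith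
  rw [h2]
  nlinarith [Real.exp_pos (c - 1)]

lemma log_near {c t s : ℝ} (hc : 3 ≤ c) (ht : c = Real.log (|t| + 1)) (hs : |s - t| ≤ c) :
    c - 1 ≤ Real.log (|s| + 1) ∧ Real.log (|s| + 1) ≤ c + 1 ∧ 2 ≤ |s| := by
  have h1 : Real.exp c = |t| + 1 := by rw [ht, Real.exp_log (by positivity)]
  have h2 := two_mul_le_exp c
  have h3 := abs_sub_abs_le_abs_sub s t
  have h4 := abs_sub_abs_le_abs_sub t s
  rw [abs_sub_comm t s] at h4
  have h6 : (2:ℝ) ≤ Real.exp 1 := by
    have := Real.add_one_le_exp (1:ℝ); linarith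
  have h5 : Real.exp c = Real.exp 1 * Real.exp (c - 1) := by rw [← Real.exp_add]; ring_nf
  have h7 : Real.exp (c + 1) = Real.exp 1 * Real.exp c := by rw [← Real.exp_add]; ring_nf
  have h8 : Real.exp (c - 1) ≤ |s| + 1 := by nlinarith [Real.exp_pos (c - 1)]
  refine ⟨?_, ?_, ?_⟩
  · rw [Real.le_log_iff_exp_le (by positivity)]
    exact h8
  · rw [Real.log_le_iff_le_exp (by positivity)]
    nlinarith [Real.exp_pos c]
  · have := Real.add_one_le_exp (c - 1)
    have h9 : Real.exp 2 ≤ Real.exp (c - 1) := Real.exp_le_exp.2 (by linarith)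
    have h10 := LFam.six_le_exp_two
    linarith

set_option maxHeartbeats 1000000 in
theorem zVert : zFam.Vert := by
  intro m σ0 h0 h1 hNZ σ1 hσ1 hσ2 ε hε
  set ε' : ℝ := ε / 3 with hε'
  have he' : 0 < ε' := by positivity
  obtain ⟨C1, hC1⟩ := eventually_big.1 (zFam.tame (m+1) h0 h1 hNZ σ1 hσ1 ε' he')
  have hBz := Bz_nonneg
  set M : ℝ := m.factorial * 2 ^ m with hM
  have hMp : 0 < M := by positivity
  set K : ℝ := 4 * Real.exp 9 * (M * Bz) / ε' + 12 + 4 / ε' ^ 2 * Real.exp (107 + ε') with hK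
  refine ⟨K, by positivity, ?_⟩
  rw [eventually_big]
  refine ⟨max (C1 + 1) (Real.log M + 200), fun x hx hx1 => ?_⟩
  set c : ℝ := cc zFam.q x with hc
  have hccdef : ∀ y : Unit × ℂ, cc zFam.q y = Real.log (|y.2.im| + 1) := fun y => by
    show Real.log (1 * (|y.2.im| + 1)) = _
    rw [one_mul]
  have hlogM : 0 ≤ Real.log M := by
    apply Real.log_nonneg
    have h2 : (1:ℝ) ≤ m.factorial := by exact_mod_cast Nat.one_le_iff_ne_zero.2 (Nat.factorial_ne_zero m)
    have h3 : (1:ℝ) ≤ 2 ^ m := one_le_pow₀ (by norm_num)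
    nlinarith
  have hcC : C1 + 1 ≤ c := (le_max_left _ _).trans hx
  have hcM : Real.log M + 200 ≤ c := (le_max_right _ _).trans hx
  have hc3 : 200 ≤ c := by linarith
  have hceq : c = Real.log (|x.2.im| + 1) := hccdef x
  have hnear : ∀ s : ℝ, |s - x.2.im| ≤ c → _ := fun s hs => log_near (by linarith) hceq hs
  have hx1' : (1:ℝ) ≤ |x.2.im| := by
    have := (hnear x.2.im (by simp; linarith)).2.2
    linarith
  have hGx : Real.exp ((c - 30) * (σ1 - 1/2)) ≤ ‖XG x.2‖ := by
    have := XG_ge (w := x.2) (by linarith) hx1'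
    rwa [hx1, ← hceq] at this
  have hG1 : 1 ≤ ‖XG x.2‖ := le_trans (Real.one_le_exp (by nlinarith)) hGx
  -- the size of the `(m+1)`-st derivative
  have hg : ∀ z : ℂ, z.re = x.2.re → |z.im - x.2.im| ≤ c →
      ‖iteratedDeriv (m+1) zf z‖ ≤ Real.exp (ε' * (c + 1)) * (Real.exp 107 * ‖XG x.2‖) := by
    intro z hz hzi
    obtain ⟨n1, n2, n3⟩ := hnear z.im hzi
    have hzr : z.re = σ1 := by rw [hz, hx1]
    have htm := (hC1 ((), z) (by rw [hccdef]; linarith) (by simp only; linarith)
      (by simp only; linarith)).2.1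
    rw [hccdef] at htm
    have hGz : XG z ≠ 0 := XG_ne_zero (by linarith) (by linarith)
    have e1 : iteratedDeriv (m+1) zf z = zFam.kk (m+1) () z * XG z := by
      show iteratedDeriv (m+1) zf z = iteratedDeriv (m+1) zf z / XG z * XG z
      rw [div_mul_cancel₀ _ hGz]
    rw [e1, norm_mul]
    have h2 := XG_le (w := z) (by linarith) (by linarith) (by linarith)
    have h3 : ‖XG z‖ ≤ Real.exp 107 * ‖XG x.2‖ := by
      calc ‖XG z‖ ≤ Real.exp ((Real.log (|z.im| + 1) + 40) * (z.re - 1/2)) := h2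
        _ ≤ Real.exp (107 + (c - 30) * (σ1 - 1/2)) := by
            apply Real.exp_le_exp.2
            rw [hzr]
            have : (Real.log (|z.im| + 1) + 40) * (σ1 - 1/2) ≤ (c + 1 + 40) * (σ1 - 1/2) :=
              mul_le_mul_of_nonneg_right (by linarith) (by linarith)
            nlinarith
        _ = Real.exp 107 * Real.exp ((c - 30) * (σ1 - 1/2)) := by rw [Real.exp_add]
        _ ≤ _ := by gcongr
    have h4 : ‖zFam.kk (m+1) () z‖ ≤ Real.exp (ε' * (c + 1)) :=
      htm.trans (Real.exp_le_exp.2 (by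
        have : Real.log (|z.im| + 1) ≤ c + 1 := n2
        show ε' * Real.log (|z.im| + 1) ≤ _
        gcongr))
    gcongr
  -- the variation of the `m`-th derivative on the vertical segment
  have hV : ∀ z : ℂ, z.re = x.2.re → |z.im - x.2.im| ≤ c →
      ‖iteratedDeriv m zf z - iteratedDeriv m zf x.2‖ ≤
        (Real.exp (ε' * (c + 1)) * (Real.exp 107 * ‖XG x.2‖)) * c := by
    intro z hz hzi
    set S : Set ℂ := {x.2.re} ×ℂ Icc (x.2.im - c) (x.2.im + c) with hS
    have hmem : ∀ z : ℂ, z ∈ S ↔ z.re = x.2.re ∧ |z.im - x.2.im| ≤ c := fun z => by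
      rw [hS, mem_reProdIm, mem_singleton_iff, mem_Icc, abs_le]
      constructor
      · rintro ⟨a, b, d⟩; exact ⟨a, by linarith, by linarith⟩
      · rintro ⟨a, b, d⟩; exact ⟨a, by linarith, by linarith⟩
    have hconv : Convex ℝ S := by
      intro y hy z hz a b ha hb hab
      rw [hmem, abs_le] at hy hz ⊢
      obtain ⟨y1, y2, y3⟩ := hy
      obtain ⟨z1, z2, z3⟩ := hz
      have e1 : (a • y + b • z).re = a * y.re + b * z.re := by simp
      have e2 : (a • y + b • z).im = a * y.im + b * z.im := by simp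
      have hb' : b = 1 - a := by linarith
      rw [e1, e2]
      refine ⟨by rw [y1, z1, hb']; ring, ?_, ?_⟩
      · have u1 : a * (-c) ≤ a * (y.im - x.2.im) := by gcongr
        have u2 : b * (-c) ≤ b * (z.im - x.2.im) := by gcongr
        have u3 : a * (y.im - x.2.im) + b * (z.im - x.2.im) = a * y.im + b * z.im - x.2.im := by
          rw [hb']; ring
        have u4 : a * (-c) + b * (-c) = -c := by rw [hb']; ring
        linarith
      · have u1 : a * (y.im - x.2.im) ≤ a * c := by gcongr
        have u2 : b * (z.im - x.2.im) ≤ b * c := by gcongr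
        have u3 : a * (y.im - x.2.im) + b * (z.im - x.2.im) = a * y.im + b * z.im - x.2.im := by
          rw [hb']; ring
        have u4 : a * c + b * c = c := by rw [hb']; ring
        linarith
    have h2 := hconv.norm_image_sub_le_of_norm_hasDerivWithin_le (f := iteratedDeriv m zf)
      (f' := iteratedDeriv (m+1) zf)
      (C := Real.exp (ε' * (c + 1)) * (Real.exp 107 * ‖XG x.2‖)) (s := S) (x := x.2) (y := z)
      (fun y hy => (zf_iter m (ne_zero_of_im (by
        have := (hnear y.im ((hmem y).1 hy).2).2.2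
        linarith))).hasDerivWithinAt)
      (fun y hy => hg y ((hmem y).1 hy).1 ((hmem y).1 hy).2)
      ((hmem _).2 ⟨rfl, by simp; linarith⟩) ((hmem z).2 ⟨hz, hzi⟩)
    refine h2.trans ?_
    have h3 : ‖z - x.2‖ ≤ c := by
      refine (Complex.norm_le_abs_re_add_abs_im _).trans ?_
      rw [Complex.sub_re, Complex.sub_im, hz, sub_self, abs_zero, zero_add]
      exact hzi
    gcongr
  have havg := gauss_avg (f := iteratedDeriv m zf) (x := x.2) (H := c) (D := M * Bz)
    (E := M * Real.exp (102 + 3 * (c + 1)))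
    (V := (Real.exp (ε' * (c + 1)) * (Real.exp 107 * ‖XG x.2‖)) * c) (by linarith) (by linarith)
    (by linarith)
    (fun z _ _ hz => (zf_iter m (ne_zero_of_im (by
        have := (hnear z.im hz).2.2
        linarith))).differentiableAt)
    (fun z hz _ => iter_left m hz)
    (fun z hz hz' hzi => by
      obtain ⟨n1, n2, n3⟩ := hnear z.im hzi.le
      refine (iter_growth m hz (by linarith) n3).trans ?_
      have : Real.exp (102 + 3 * Real.log (|z.im| + 1)) ≤ Real.exp (102 + 3 * (c + 1)) :=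
        Real.exp_le_exp.2 (by linarith)
      gcongr)
    (by
      have e1 : M = Real.exp (Real.log M) := (Real.exp_log hMp).symm
      rw [e1, ← Real.exp_add, ← Real.exp_add]
      apply Real.exp_le_one_iff.2
      nlinarith) hV
  refine havg.trans ?_
  -- final comparison
  set P : ℝ := Real.exp (ε' * c) with hP
  have hP1 : 1 ≤ P := Real.one_le_exp (by positivity)
  have hcP : c ≤ P / ε' := by
    rw [le_div_iff₀ he']
    have := Real.add_one_le_exp (ε' * c)
    linarith
  have hexp : Real.exp (ε * c) = P ^ 3 := by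
    rw [hP, ← Real.exp_nat_mul, hε']
    congr 1
    push_cast
    ring
  have hexp2 : Real.exp (ε' * (c + 1)) * Real.exp 107 = P * Real.exp (107 + ε') := by
    rw [hP, ← Real.exp_add, ← Real.exp_add]
    congr 1
    ring
  set G : ℝ := ‖XG x.2‖ with hG
  have hPp : 0 < P := by linarith
  have hGp : 0 < G := by linarith
  have hP3 : P ≤ P ^ 3 := by
    calc P = P ^ 1 := (pow_one P).symm
      _ ≤ P ^ 3 := pow_le_pow_right₀ hP1 (by norm_num)
  have hPG : P ≤ G * P ^ 3 := by nlinarith
  have t1 : 4 * c * Real.exp 9 * (M * Bz) ≤ (4 * Real.exp 9 * (M * Bz) / ε') * (G * P ^ 3) := by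
    calc 4 * c * Real.exp 9 * (M * Bz) ≤ 4 * (P / ε') * Real.exp 9 * (M * Bz) := by gcongr
      _ = (4 * Real.exp 9 * (M * Bz) / ε') * P := by field_simp
      _ ≤ _ := by gcongr
  have t2 : (12:ℝ) ≤ 12 * (G * P ^ 3) := by nlinarith
  have t3 : 4 * c * ((Real.exp (ε' * (c + 1)) * (Real.exp 107 * G)) * c) ≤
      (4 / ε' ^ 2 * Real.exp (107 + ε')) * (G * P ^ 3) := by
    calc 4 * c * ((Real.exp (ε' * (c + 1)) * (Real.exp 107 * G)) * c) =
        4 * (c * c) * ((Real.exp (ε' * (c + 1)) * Real.exp 107) * G) := by ring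
      _ = 4 * (c * c) * ((P * Real.exp (107 + ε')) * G) := by rw [hexp2]
      _ ≤ 4 * ((P / ε') * (P / ε')) * ((P * Real.exp (107 + ε')) * G) := by
          gcongr
      _ = _ := by field_simp
  show _ ≤ K * (G * Real.exp (ε * c))
  rw [hexp, hK]
  linarith

end Vale.Agent.P026.H832
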