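import Vale.Agent.P026.H832.F3

/-!
The quasi-Riemann hypothesis and the derivatives of the completed functions (large heights).
-/

open Complex Filter Metric Set Topology P026.H725

namespace Vale.Agent.P026.H832

/-- **Q1**: quasi-RH iff a zero-free strip for the `k`-th derivative of `ξ` (large heights) -/
theorem quasi_xi (k : ℕ) :
    (∃ σ0 < (1:ℝ), ∀ s : ℂ, σ0 < s.re → riemannZeta s ≠ 0) ↔
    (∃ σ0 < (1:ℝ), ∃ T : ℝ, ∀ s : ℂ, σ0 < s.re → T ≤ |s.im| → iteratedDeriv k xi s ≠ 0) := by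
  constructor
  · rintro ⟨σ0, h0, h⟩
    set τ : ℝ := max σ0 (1/2) with hτ
    have h1 : τ < 1 := max_lt h0 (by norm_num)
    have h2 : 1/2 ≤ τ := le_max_right _ _
    have h3 : σ0 ≤ τ := le_max_left _ _
    have key := (sharp_xi k h2 (by linarith)).1
      (fun σ hσ => ⟨0, fun s hs _ => h s (by linarith)⟩)
    obtain ⟨T, hT⟩ := key ((1 + τ) / 2) (by linarith)
    exact ⟨(1 + τ) / 2, by linarith, T, fun s hs hs' => hT s hs.le hs'⟩
  · rintro ⟨σ0, h0, T, h⟩
    set τ : ℝ := max σ0 (1/2) with hτ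
    have h1 : τ < 1 := max_lt h0 (by norm_num)
    have h2 : 1/2 ≤ τ := le_max_right _ _
    have h3 : σ0 ≤ τ := le_max_left _ _
    have key := (sharp_xi k h2 (by linarith)).2
      (fun σ hσ => ⟨T, fun s hs hs' => h s (by linarith) hs'⟩)
    obtain ⟨T', hT'⟩ := key ((1 + τ) / 2) (by linarith)
    obtain ⟨σ1, h4, h5⟩ := xi_all (σ := (1 + τ) / 2) (by linarith) hT'
    refine ⟨max ((1 + τ) / 2) σ1, max_lt (by linarith) h4, fun s hs => ?_⟩
    exact h5 s ((le_max_left _ _).trans_lt hs) ((le_max_right _ _).trans_lt hs)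

/-- **Q2**: uniform quasi-GRH iff uniform zero-free strips for the `k`-th derivatives of `ξ` and of
all completed `L`-functions (large heights/conductors) -/
theorem quasi_chi (k : ℕ) :
    (∃ σ0 < (1:ℝ), ∀ (q : ℕ) [NeZero q] (χ : DirichletCharacter ℂ q) (s : ℂ),
      σ0 < s.re → s.re < 1 → χ.LFunction s ≠ 0) ↔
    (∃ σ0 < (1:ℝ), ∃ C : ℝ,
      (∀ s : ℂ, σ0 < s.re → C ≤ |s.im| → iteratedDeriv k xi s ≠ 0) ∧
      ∀ (q : ℕ) [NeZero q] (χ : DirichletCharacter ℂ q), χ.IsPrimitive → χ ≠ 1 →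
        ∀ s : ℂ, σ0 < s.re → C ≤ q * (|s.im| + 1) → iteratedDeriv k (Lam χ) s ≠ 0) := by
  constructor
  · rintro ⟨σ0, h0, h⟩
    set τ : ℝ := max σ0 (1/2) with hτ
    have h1 : τ < 1 := max_lt h0 (by norm_num)
    have h2 : 1/2 ≤ τ := le_max_right _ _
    have h3 : σ0 ≤ τ := le_max_left _ _
    have hz : ∀ s : ℂ, σ0 < s.re → riemannZeta s ≠ 0 := by
      intro s hs
      rcases lt_or_ge s.re 1 with h4 | h4
      · have := h 1 1 s hs h4
        rwa [DirichletCharacter.LFunction_modOne_eq] at this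
      · exact riemannZeta_ne_zero_of_one_le_re h4
    have key := (sharp_xi k h2 (by linarith)).1
      (fun σ hσ => ⟨0, fun s hs _ => hz s (by linarith)⟩)
    obtain ⟨T, hT⟩ := key ((1 + τ) / 2) (by linarith)
    have key2 := (sharp_chi k h2 (by linarith)).1
      (fun σ hσ => ⟨0, fun q _ χ hp hχ s hs _ => by
        rcases lt_or_ge s.re 1 with h4 | h4
        · exact h q χ s (by linarith) h4
        · exact DirichletCharacter.LFunction_ne_zero_of_one_le_re χ (Or.inl hχ) h4⟩)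
    obtain ⟨C, hC⟩ := key2 ((1 + τ) / 2) (by linarith)
    refine ⟨(1 + τ) / 2, by linarith, max T C, fun s hs hs' => ?_, fun q _ χ hp hχ s hs hs' => ?_⟩
    · exact hT s hs.le ((le_max_left _ _).trans hs')
    · exact hC q χ hp hχ s hs.le ((le_max_right _ _).trans hs')
  · rintro ⟨σ0, h0, C, hx, hc⟩
    set τ : ℝ := max σ0 (1/2) with hτ
    have h1 : τ < 1 := max_lt h0 (by norm_num)
    have h2 : 1/2 ≤ τ := le_max_right _ _
    have h3 : σ0 ≤ τ := le_max_left _ _
    obtain ⟨σz, hz1, hz2⟩ := (quasi_xi k).2 ⟨σ0, h0, C, hx⟩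
    have key2 := (sharp_chi k h2 (by linarith)).2
      (fun σ hσ => ⟨C, fun q _ χ hp hχ s hs hs' => hc q χ hp hχ s (by linarith) hs'⟩)
    obtain ⟨C', hC'⟩ := key2 ((1 + τ) / 2) (by linarith)
    obtain ⟨σ1, h4, h5⟩ := chi_all (σ := (1 + τ) / 2) (by linarith) hC'
    set m : ℝ := max (max ((1 + τ) / 2) σ1) σz with hm
    have m1 : (1 + τ) / 2 ≤ m := (le_max_left _ _).trans (le_max_left _ _)
    have m2 : σ1 ≤ m := (le_max_right _ _).trans (le_max_left _ _)
    have m3 : σz ≤ m := le_max_right _ _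
    refine ⟨m, max_lt (max_lt (by linarith) h4) hz1, fun q _ χ s hs hs1 => ?_⟩
    exact all_of_primitive (σ := m) (by linarith) (fun s hs => hz2 s (by linarith))
      (fun q _ χ hp hχ s hs => h5 q χ hp hχ s (by linarith) (by linarith)) q χ s hs hs1

end Vale.Agent.P026.H832
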