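import Vale.Agent.P026.H832.B11
import Vale.Agent.P026.H832.F4

/-!
The zeros of the derivatives of `ζ` to the left of the critical strip's right part.
-/

open Complex Filter Metric Set Topology P026.H725

namespace Vale.Agent.P026.H832

theorem iter_zf (k : ℕ) (w : ℂ) :
    iteratedDeriv k zf w = (-1) ^ k * iteratedDeriv k riemannZeta (1 - w) := by
  have := congrFun (iteratedDeriv_comp_const_sub k riemannZeta (1:ℂ)) w
  have e : zf = fun z => riemannZeta (1 - z) := rfl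
  rw [e, this]
  simp

theorem iter_zf_ne (k : ℕ) (w : ℂ) :
    iteratedDeriv k zf w ≠ 0 ↔ iteratedDeriv k riemannZeta (1 - w) ≠ 0 := by
  rw [iter_zf]
  have h1 : ((-1 : ℂ)) ^ k ≠ 0 := pow_ne_zero k (by norm_num)
  exact ⟨fun h => right_ne_zero_of_mul h, fun h => mul_ne_zero h1 h⟩

theorem zFam_NZ_iff (k : ℕ) (σ0 : ℝ) : zFam.NZ k σ0 ↔
    ∀ σ : ℝ, σ0 < σ → ∃ T : ℝ, ∀ s : ℂ, s.re ≤ 1 - σ → T ≤ |s.im| →
      iteratedDeriv k riemannZeta s ≠ 0 := by
  constructor
  · intro h σ hσ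
    obtain ⟨C, hC⟩ := eventually_big.1 (h σ hσ)
    refine ⟨Real.exp C, fun s hs hT => ?_⟩
    have h1 : iteratedDeriv k zf (1 - s) ≠ 0 := by
      refine hC ((), 1 - s) ?_ (by simp; linarith)
      show C ≤ Real.log (1 * (|(1 - s).im| + 1))
      have e : |(1 - s).im| = |s.im| := by simp
      rw [one_mul, e, Real.le_log_iff_exp_le (by positivity)]
      linarith
    rwa [iter_zf_ne, sub_sub_cancel] at h1
  · intro h σ hσ
    obtain ⟨T, hT⟩ := h σ hσ
    refine big_one (T := T) fun x hx hs => ?_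
    show iteratedDeriv k zf x.2 ≠ 0
    rw [iter_zf_ne]
    refine hT (1 - x.2) (by simp; linarith) ?_
    have e : |(1 - x.2).im| = |x.2.im| := by simp
    rwa [e]

/-- **sharp form on the left** -/
theorem sharp_left (k : ℕ) {σ0 : ℝ} (h0 : 1/2 ≤ σ0) (h1 : σ0 < 2) :
    (∀ σ : ℝ, σ0 < σ → ∃ T : ℝ, ∀ s : ℂ, σ ≤ s.re → T ≤ |s.im| → riemannZeta s ≠ 0) ↔
    (∀ σ : ℝ, σ0 < σ → ∃ T : ℝ, ∀ s : ℂ, s.re ≤ 1 - σ → T ≤ |s.im| →
      iteratedDeriv k riemannZeta s ≠ 0) := by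
  rw [← zFam_NZ_iff, zFam.nz_iff zVert k 0 h0 h1, zFam_NZ_iff]
  refine forall₂_congr fun σ hσ => ?_
  constructor
  · rintro ⟨T, hT⟩
    refine ⟨max T 1, fun s hs hT1 => ?_⟩
    have hT' : T ≤ |s.im| := (le_max_left _ _).trans hT1
    have h1' : 1 ≤ |s.im| := (le_max_right _ _).trans hT1
    have e1 : |(1 - s).im| = |s.im| := by simp
    have hre : (1 - s).re = 1 - s.re := by simp
    have h2 := hT (1 - s) (by rw [hre]; linarith) (by rwa [e1])
    rw [iteratedDeriv_zero]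
    have e2 : riemannZeta s = zf (1 - s) := by unfold zf; rw [sub_sub_cancel]
    rw [e2, zf_eq (by rw [hre]; linarith) (ne_one_of_im (by rwa [e1]))]
    exact mul_ne_zero (XG_ne_zero (by rw [hre]; linarith) (by rwa [e1])) h2
  · rintro ⟨T, hT⟩
    refine ⟨max T 1, fun s hs hT1 => ?_⟩
    have hT' : T ≤ |s.im| := (le_max_left _ _).trans hT1
    have h1' : 1 ≤ |s.im| := (le_max_right _ _).trans hT1
    have e1 : |(1 - s).im| = |s.im| := by simp
    have hre : (1 - s).re = 1 - s.re := by simp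
    have h2 := hT (1 - s) (by rw [hre]; linarith) (by rwa [e1])
    rw [iteratedDeriv_zero] at h2
    have e2 : riemannZeta (1 - s) = zf s := rfl
    rw [e2, zf_eq (by linarith) (ne_one_of_im h1')] at h2
    exact right_ne_zero_of_mul h2

/-- **Q1** on the left: quasi-RH iff the `k`-th derivative of `ζ` has no zeros with `Re s < δ` and
large imaginary part, for some `δ > 0` -/
theorem quasi_left (k : ℕ) :
    (∃ σ0 < (1:ℝ), ∀ s : ℂ, σ0 < s.re → riemannZeta s ≠ 0) ↔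
    (∃ δ > (0:ℝ), ∃ T : ℝ, ∀ s : ℂ, s.re < δ → T ≤ |s.im| → iteratedDeriv k riemannZeta s ≠ 0) := by
  constructor
  · rintro ⟨σ0, h0, h⟩
    set τ : ℝ := max σ0 (1/2) with hτ
    have h1 : τ < 1 := max_lt h0 (by norm_num)
    have h2 : 1/2 ≤ τ := le_max_right _ _
    have h3 : σ0 ≤ τ := le_max_left _ _
    have key := (sharp_left k h2 (by linarith)).1
      (fun σ hσ => ⟨0, fun s hs _ => h s (by linarith)⟩)
    obtain ⟨T, hT⟩ := key ((1 + τ) / 2) (by linarith)
    exact ⟨1 - (1 + τ) / 2, by linarith, T, fun s hs hs' => hT s (by linarith) hs'⟩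
  · rintro ⟨δ, h0, T, h⟩
    set τ : ℝ := max (1 - δ) (1/2) with hτ
    have h1 : τ < 1 := max_lt (by linarith) (by norm_num)
    have h2 : 1/2 ≤ τ := le_max_right _ _
    have h3 : 1 - δ ≤ τ := le_max_left _ _
    have key := (sharp_left k h2 (by linarith)).2
      (fun σ hσ => ⟨T, fun s hs hs' => h s (by linarith) hs'⟩)
    obtain ⟨T', hT'⟩ := key ((1 + τ) / 2) (by linarith)
    obtain ⟨σ1, h4, h5⟩ := xi_all (σ := (1 + τ) / 2) (by linarith) hT'
    refine ⟨max ((1 + τ) / 2) σ1, max_lt (by linarith) h4, fun s hs => ?_⟩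
    exact h5 s ((le_max_left _ _).trans_lt hs) ((le_max_right _ _).trans_lt hs)

end Vale.Agent.P026.H832
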