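import Vale.Agent.P026.H832.A8

/-!
Variant of the abstract theorem for `G'/G = c + O(1)` (used for `ζ(1 - w) = X(w) ζ(w)`).
-/

open Complex Filter Metric Set Topology

namespace Vale.Agent.P026.H832

variable {ι : Type*}

/-- A family of functions `F = G L` with `G'/G = c + O(1)`. -/
structure BFam (ι : Type*) where
  q : ι → ℝ
  one_le_q : ∀ i, 1 ≤ q i
  F : ι → ℂ → ℂ
  G : ι → ℂ → ℂ
  L : ι → ℂ → ℂ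
  a : ι → ℂ → ℂ
  A : ℝ
  A_pos : 0 < A
  F_iter : ∀ i m w, 1/2 ≤ w.re → HasDerivAt (iteratedDeriv m (F i)) (iteratedDeriv (m + 1) (F i) w) w
  fac : ∀ᶠ x in big q, 1/2 ≤ x.2.re → F x.1 x.2 = G x.1 x.2 * L x.1 x.2
  G_ne : ∀ᶠ x in big q, 1/2 ≤ x.2.re → G x.1 x.2 ≠ 0
  G_deriv : ∀ᶠ x in big q, 1/2 ≤ x.2.re → HasDerivAt (G x.1) (a x.1 x.2 * G x.1 x.2) x.2
  a_diff : ∀ᶠ x in big q, 1/2 ≤ x.2.re → DifferentiableAt ℂ (a x.1) x.2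
  a_re : ∀ᶠ x in big q, 1/2 ≤ x.2.re → cc q x - A ≤ (a x.1 x.2).re
  a_norm : ∀ᶠ x in big q, 1/2 ≤ x.2.re → x.2.re ≤ 8 → ‖a x.1 x.2 - (cc q x : ℝ)‖ ≤ A
  L_growth : ∀ᶠ x in big q, 1/2 ≤ x.2.re → x.2.re ≤ 8 → ‖L x.1 x.2‖ ≤ Real.exp (A * (cc q x + 1))
  L_bdd : ∀ᶠ x in big q, 3/2 ≤ x.2.re → ‖L x.1 x.2‖ ≤ A
  L_one : ∀ᶠ x in big q, 2 ≤ x.2.re → ‖L x.1 x.2 - 1‖ ≤ 2/3

namespace BFam

variable (Φ : BFam ι)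

/-- the `m`-th derivative divided by the gamma factor -/
noncomputable def kk (m : ℕ) (i : ι) (w : ℂ) : ℂ := iteratedDeriv m (Φ.F i) w / Φ.G i w

/-- the normalised `m`-th derivative -/
noncomputable def HH (m : ℕ) (i : ι) (w : ℂ) : ℂ := Φ.kk m i w / Φ.a i w ^ m

/-- good points -/
structure Good (x : ι × ℂ) : Prop where
  fac : 1/2 ≤ x.2.re → Φ.F x.1 x.2 = Φ.G x.1 x.2 * Φ.L x.1 x.2
  G_ne : 1/2 ≤ x.2.re → Φ.G x.1 x.2 ≠ 0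
  G_deriv : 1/2 ≤ x.2.re → HasDerivAt (Φ.G x.1) (Φ.a x.1 x.2 * Φ.G x.1 x.2) x.2
  a_diff : 1/2 ≤ x.2.re → DifferentiableAt ℂ (Φ.a x.1) x.2
  a_re : 1/2 ≤ x.2.re → cc Φ.q x - Φ.A ≤ (Φ.a x.1 x.2).re
  a_norm : 1/2 ≤ x.2.re → x.2.re ≤ 8 → ‖Φ.a x.1 x.2 - (cc Φ.q x : ℝ)‖ ≤ Φ.A
  L_growth : 1/2 ≤ x.2.re → x.2.re ≤ 8 → ‖Φ.L x.1 x.2‖ ≤ Real.exp (Φ.A * (cc Φ.q x + 1))
  L_bdd : 3/2 ≤ x.2.re → ‖Φ.L x.1 x.2‖ ≤ Φ.A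
  L_one : 2 ≤ x.2.re → ‖Φ.L x.1 x.2 - 1‖ ≤ 2/3
  big : 2 * (Φ.A + 1) ≤ cc Φ.q x

theorem good : ∀ᶠ x in big Φ.q, Φ.Good x := by
  filter_upwards [Φ.fac, Φ.G_ne, Φ.G_deriv, Φ.a_diff, Φ.a_re, Φ.a_norm, Φ.L_growth, Φ.L_bdd, Φ.L_one,
    (tendsto_cc Φ.q).eventually_ge_atTop (2 * (Φ.A + 1))] with x h1 h2 h3 h4 h5 h6 h7 h8 h9 h10
  exact ⟨h1, h2, h3, h4, h5, h6, h7, h8, h9, h10⟩

variable {Φ}

theorem Good.one_le_a {x : ι × ℂ} (h : Φ.Good x) (hx : 1/2 ≤ x.2.re) : 1 ≤ ‖Φ.a x.1 x.2‖ := by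
  have h1 := h.a_re hx
  have h2 := h.big
  have h3 := Complex.re_le_norm (Φ.a x.1 x.2)
  have h4 := Φ.A_pos
  linarith

theorem Good.a_ne {x : ι × ℂ} (h : Φ.Good x) (hx : 1/2 ≤ x.2.re) : Φ.a x.1 x.2 ≠ 0 := by
  have := h.one_le_a hx
  intro h0
  rw [h0, norm_zero] at this
  linarith

theorem Good.kk_deriv {x : ι × ℂ} (h : Φ.Good x) (hx : 1/2 ≤ x.2.re) (m : ℕ) :
    HasDerivAt (Φ.kk m x.1) (Φ.kk (m+1) x.1 x.2 - Φ.a x.1 x.2 * Φ.kk m x.1 x.2) x.2 := by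
  have h1 := (Φ.F_iter x.1 m x.2 hx).div (h.G_deriv hx) (h.G_ne hx)
  refine h1.congr_deriv ?_
  have := h.G_ne hx
  unfold kk
  field_simp

theorem Good.HH_deriv {x : ι × ℂ} (h : Φ.Good x) (hx : 1/2 ≤ x.2.re) (m : ℕ) :
    HasDerivAt (Φ.HH m x.1) (Φ.a x.1 x.2 * Φ.HH (m+1) x.1 x.2 - Φ.a x.1 x.2 * Φ.HH m x.1 x.2 -
      m * (deriv (Φ.a x.1) x.2 / Φ.a x.1 x.2) * Φ.HH m x.1 x.2) x.2 := by
  have ha := h.a_ne hx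
  have h1 := (h.kk_deriv hx m).div ((h.a_diff hx).hasDerivAt.pow m) (pow_ne_zero m ha)
  refine h1.congr_deriv ?_
  unfold HH
  rcases m with _ | m
  · simp
    field_simp
  · simp only [Nat.add_sub_cancel, Pi.pow_apply]
    field_simp
    ring

end BFam

end Vale.Agent.P026.H832
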