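import Vale.Agent.P026.H832.B6

/-!
The two steps for `BFam`.
-/

open Complex Filter Metric Set Topology

namespace Vale.Agent.P026.H832

namespace BFam

variable {ι : Type*} (Φ : BFam ι)

/-- up: from the `m`-th to the `(m+1)`-st derivative -/
theorem step_up (m : ℕ) {σ0 : ℝ} (h0 : 1/2 ≤ σ0) (h1 : σ0 < 2) (hNZ : Φ.NZ m σ0) : Φ.NZ (m+1) σ0 := by
  intro σ hσ
  have hAp := Φ.A_pos
  filter_upwards [Φ.good, Φ.ne_zero_right (m+1), Φ.tame m h0 h1 hNZ σ hσ (1/8) (by norm_num),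
    hNZ σ hσ, (tendsto_cc Φ.q).eventually_ge_atTop (4 * Φ.A + 1)] with x hx hr ht hnz hc h3
  rcases le_or_gt 2 x.2.re with h4 | h4
  · exact hr h4
  have h5 : 1/2 ≤ x.2.re := by linarith
  obtain ⟨t1, -, -⟩ := ht h3 (by linarith)
  have hkne : Φ.kk m x.1 x.2 ≠ 0 := div_ne_zero (hnz h3) (hx.G_ne h5)
  have hk := (hx.kk_deriv h5 m).deriv
  intro h6
  have h7 : Φ.kk (m+1) x.1 x.2 = 0 := by unfold kk; rw [h6, zero_div]
  rw [hk, h7, zero_sub, norm_neg, norm_mul] at t1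
  have h8 : 0 < ‖Φ.kk m x.1 x.2‖ := norm_pos_iff.2 hkne
  have h9 := le_of_mul_le_mul_right t1 h8
  have h10 := (hx.a_re h5).trans (Complex.re_le_norm _)
  linarith

/-- the vertical bound -/
def Vert : Prop := ∀ (m : ℕ) (σ0 : ℝ), 1/2 ≤ σ0 → σ0 < 2 → Φ.NZ (m+1) σ0 → ∀ σ1 : ℝ, σ0 < σ1 →
  σ1 ≤ 2 → ∀ ε : ℝ, 0 < ε → ∃ K : ℝ, 0 < K ∧ ∀ᶠ x in big Φ.q, x.2.re = σ1 →
    ‖iteratedDeriv m (Φ.F x.1) x.2‖ ≤ K * (‖Φ.G x.1 x.2‖ * Real.exp (ε * cc Φ.q x))

set_option maxHeartbeats 1000000 in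
/-- down: from the `(m+1)`-st to the `m`-th derivative -/
theorem step_down (hV : Φ.Vert) (m : ℕ) {σ0 : ℝ} (h0 : 1/2 ≤ σ0) (h1 : σ0 < 2)
    (hNZ : Φ.NZ (m+1) σ0) : Φ.NZ m σ0 := by
  intro σ hσ
  have hAp := Φ.A_pos
  -- reduce to σ ≤ 2
  set σt : ℝ := min σ 2 with hσt
  have b1 : σ0 < σt := lt_min hσ h1
  have b2 : σt ≤ 2 := min_le_right _ _
  have b3 : σt ≤ σ := min_le_left _ _
  set σ1 : ℝ := (σ0 + σt) / 2 with hσ1
  have b4 : σ0 < σ1 := by rw [hσ1]; linarith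
  have b5 : σ1 < σt := by rw [hσ1]; linarith
  set δ : ℝ := σt - σ1 with hδ
  have b6 : 0 < δ := by rw [hδ]; linarith
  set ε : ℝ := min (1/32) (δ / 8) with hε
  have e0 : 0 < ε := lt_min (by norm_num) (by linarith)
  have e2 : ε ≤ 1/32 := min_le_left _ _
  have e3 : ε ≤ δ / 8 := min_le_right _ _
  obtain ⟨K0, hK0, hvert⟩ := hV m σ0 h0 h1 hNZ σ1 b4 (by linarith) ε e0
  -- final numeric condition
  set K : ℝ := 2 * K0 * Real.exp (Φ.A * 3) + 1 with hK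
  have hKp : 0 < K := by positivity
  have hnum : ∀ᶠ c : ℝ in atTop, K * (c * Real.exp (-(δ / 4 * c))) ≤ 1/2 := by
    have h7 := tendsto_rpow_mul_exp_neg_mul_atTop_nhds_zero 1 (δ / 4) (by linarith)
    have h8 := h7.const_mul K
    rw [mul_zero] at h8
    have h9 : ∀ᶠ c : ℝ in atTop, K * (c ^ (1:ℝ) * Real.exp (-(δ / 4) * c)) ≤ 1/2 :=
      h8.eventually (eventually_le_nhds (by norm_num))
    filter_upwards [h9] with c hc
    rw [Real.rpow_one, neg_mul] at hc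
    exact hc
  filter_upwards [Φ.ne_zero_right m, shift Φ.one_le_q Φ.good 3,
    shift Φ.one_le_q (Φ.tame (m+1) h0 h1 hNZ σ1 b4 ε e0) 3,
    shift Φ.one_le_q (hNZ σ1 b4) 3,
    shift Φ.one_le_q hvert 3,
    (tendsto_cc Φ.q).eventually hnum,
    (tendsto_cc Φ.q).eventually_ge_atTop (64 * Φ.A + 64 / δ)] with x hr hg ht hnz hv hnx hc h3
  rcases le_or_gt 2 x.2.re with h4 | h4
  · exact hr h4
  set c := cc Φ.q x with hcdef
  have c1 : 64 * Φ.A ≤ c := by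
    have : 0 ≤ 64 / δ := by positivity
    linarith
  have c2 : 64 / δ ≤ c := by linarith
  have cpos : 0 < c := by linarith
  set R : ℝ := x.2.re - σ1 with hR
  have r1 : δ ≤ R := by rw [hR, hδ]; linarith
  have r2 : R ≤ 3/2 := by rw [hR]; linarith
  have hcδ : 64 ≤ c * δ := by rwa [div_le_iff₀ b6] at c2
  -- points on the segment
  have hseg : ∀ u : ℝ, u ∈ Icc 0 R → ‖x.2 - (u:ℂ) - x.2‖ ≤ 3 := by
    intro u hu
    have : x.2 - (u:ℂ) - x.2 = ((-u : ℝ) : ℂ) := by push_cast; ring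
    rw [this, Complex.norm_real, Real.norm_eq_abs, abs_neg, abs_of_nonneg hu.1]
    linarith [hu.2]
  have hsre : ∀ u : ℝ, (x.2 - (u:ℂ)).re = x.2.re - u := by intro u; simp
  have hsim : ∀ u : ℝ, (x.2 - (u:ℂ)).im = x.2.im := by intro u; simp
  have hscc : ∀ u : ℝ, cc Φ.q (x.1, x.2 - (u:ℂ)) = c := by
    intro u; rw [hcdef]; unfold cc; simp only [hsim]
  have hin : ∀ u : ℝ, HasDerivAt (fun u : ℝ => x.2 - (u:ℂ)) (-1) u := by
    intro u
    have := (Complex.ofRealCLM.hasDerivAt (x := u)).const_sub x.2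
    simpa using this
  set α : ℝ → ℂ := fun u => -(Φ.a x.1 (x.2 - u) +
    deriv (Φ.kk (m+1) x.1) (x.2 - u) / Φ.kk (m+1) x.1 (x.2 - u)) with hα
  -- the derivative data
  have hgood : ∀ u ∈ Icc 0 R, Φ.Good (x.1, x.2 - (u:ℂ)) := fun u hu => hg _ (hseg u hu)
  have hre' : ∀ u ∈ Icc 0 R, 1/2 ≤ (x.2 - (u:ℂ)).re := by
    intro u hu; rw [hsre]; linarith [hu.2]
  have hne : ∀ u ∈ Icc 0 R, iteratedDeriv (m+1) (Φ.F x.1) (x.2 - (u:ℂ)) ≠ 0 := by
    intro u hu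
    exact hnz _ (hseg u hu) (by rw [hsre]; linarith [hu.2])
  have hGd : ∀ u ∈ Icc 0 R, HasDerivAt (fun u : ℝ => Φ.G x.1 (x.2 - (u:ℂ)))
      ((-(Φ.a x.1 (x.2 - (u:ℂ)))) * Φ.G x.1 (x.2 - (u:ℂ))) u := by
    intro u hu
    have := HasDerivAt.scomp u ((hgood u hu).G_deriv (hre' u hu)) (hin u)
    refine this.congr_deriv ?_
    simp
  have hS : ∀ u ∈ Icc 0 R, HasDerivAt (fun u : ℝ => iteratedDeriv m (Φ.F x.1) (x.2 - (u:ℂ)))
      (-(iteratedDeriv (m+1) (Φ.F x.1) (x.2 - (u:ℂ)))) u := by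
    intro u hu
    have := HasDerivAt.scomp u (Φ.F_iter x.1 m (x.2 - (u:ℂ)) (hre' u hu)) (hin u)
    refine this.congr_deriv ?_
    simp
  have hgd : ∀ u ∈ Icc 0 R, HasDerivAt
      (fun u : ℝ => iteratedDeriv (m+1) (Φ.F x.1) (x.2 - (u:ℂ)))
      (α u * iteratedDeriv (m+1) (Φ.F x.1) (x.2 - (u:ℂ))) u := by
    intro u hu
    have := HasDerivAt.scomp u (Φ.F_iter x.1 (m+1) (x.2 - (u:ℂ)) (hre' u hu)) (hin u)
    refine this.congr_deriv ?_
    have hk := ((hgood u hu).kk_deriv (hre' u hu) (m+1)).deriv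
    simp only at hk
    have hG := (hgood u hu).G_ne (hre' u hu)
    simp only at hG
    have hF := hne u hu
    simp only [hα, hk]
    unfold kk
    rw [smul_eq_mul]
    field_simp
    ring
  have hαb : ∀ u ∈ Icc 0 R, ‖α u + ((c : ℝ) : ℂ)‖ ≤ 1/8 * c := by
    intro u hu
    have ha := (hgood u hu).a_norm (hre' u hu) (by rw [hsre]; linarith [hu.1])
    simp only at ha
    rw [hscc] at ha
    have htu := (ht _ (hseg u hu) (by rw [hsre]; linarith [hu.2]) (by rw [hsre]; linarith [hu.1])).1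
    rw [hscc] at htu
    have hkne : Φ.kk (m+1) x.1 (x.2 - (u:ℂ)) ≠ 0 :=
      div_ne_zero (hne u hu) ((hgood u hu).G_ne (hre' u hu))
    have hq : ‖deriv (Φ.kk (m+1) x.1) (x.2 - u) / Φ.kk (m+1) x.1 (x.2 - u)‖ ≤ ε * c := by
      rw [norm_div, div_le_iff₀ (norm_pos_iff.2 hkne)]
      exact htu
    have e : α u + ((c : ℝ) : ℂ) = -((Φ.a x.1 (x.2 - (u:ℂ)) - ((c : ℝ) : ℂ)) +
        deriv (Φ.kk (m+1) x.1) (x.2 - u) / Φ.kk (m+1) x.1 (x.2 - u)) := by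
      simp only [hα]; ring
    rw [e, norm_neg]
    refine (norm_add_le _ _).trans ?_
    have : ε * c ≤ 1/32 * c := by gcongr
    linarith
  have hexp8 : Real.exp (-(c * R)) ≤ 1/8 := by
    have h5 : 32 ≤ c * R := by nlinarith
    have h6 : Real.exp (-(c * R)) ≤ Real.exp (-(2 + 2)) := Real.exp_le_exp.2 (by linarith)
    have h7 : Real.exp (-(2 + 2)) ≤ 1/8 := by
      rw [Real.exp_neg, ← one_div, Real.exp_add]
      apply one_div_le_one_div_of_le (by norm_num)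
      have := LFam.six_le_exp_two
      nlinarith
    exact h6.trans h7
  have hor := horizontal (S := fun u : ℝ => iteratedDeriv m (Φ.F x.1) (x.2 - (u:ℂ)))
    (g := fun u : ℝ => iteratedDeriv (m+1) (Φ.F x.1) (x.2 - (u:ℂ))) (α := α) (R := R)
    (lam := c) (ε := 1/8) (by linarith) cpos (by norm_num) le_rfl hexp8 hS hgd hαb
  simp only [Complex.ofReal_zero, sub_zero] at hor
  -- the gamma factor
  have hGR := norm_le_exp (g := fun u : ℝ => Φ.G x.1 (x.2 - (u:ℂ)))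
    (α := fun u => -(Φ.a x.1 (x.2 - (u:ℂ)))) (U := R) (m := -(c - Φ.A)) hGd
    (fun u hu => by
      have ha := (hgood u hu).a_re (hre' u hu)
      simp only at ha
      rw [hscc] at ha
      rw [Complex.neg_re]
      linarith) R ⟨by linarith, le_rfl⟩
  simp only [Complex.ofReal_zero, sub_zero] at hGR
  -- vertical bound at the left end point
  have hmem : R ∈ Icc 0 R := ⟨by linarith, le_rfl⟩
  have hver := hv _ (hseg R hmem) (by simp only [hsre]; rw [hR]; ring)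
  rw [hscc] at hver
  -- the size of the (m+1)-st derivative at x
  have htx := (ht x.2 (by simp) (by linarith) (by linarith)).2.2
  have hgx := hg x.2 (by simp)
  have hGx : Φ.G x.1 x.2 ≠ 0 := hgx.G_ne (by simp only; linarith)
  have hGpos : 0 < ‖Φ.G x.1 x.2‖ := norm_pos_iff.2 hGx
  have hFx : ‖iteratedDeriv (m+1) (Φ.F x.1) x.2‖ = ‖Φ.G x.1 x.2‖ * ‖Φ.kk (m+1) x.1 x.2‖ := by
    unfold kk
    rw [norm_div, mul_div_cancel₀ _ hGpos.ne']
  have hcx : cc Φ.q (x.1, x.2) = c := rfl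
  rw [hcx] at htx
  intro hzero
  rw [hzero, zero_sub, norm_neg, hFx] at hor
  -- chain of inequalities
  have k1 : ‖Φ.G x.1 x.2‖ * Real.exp (-(ε * c)) / (2 * c) ≤
      ‖iteratedDeriv m (Φ.F x.1) (x.2 - (R:ℂ))‖ := by
    refine le_trans ?_ hor
    gcongr
  have k2 : ‖iteratedDeriv m (Φ.F x.1) (x.2 - (R:ℂ))‖ ≤
      K0 * ((‖Φ.G x.1 x.2‖ * Real.exp (-(c - Φ.A) * R)) * Real.exp (ε * c)) := by
    refine hver.trans ?_
    gcongr
  have k3 := k1.trans k2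
  have k4 : Real.exp (-(ε * c)) ≤ 2 * c * (K0 * (Real.exp (-(c - Φ.A) * R) * Real.exp (ε * c))) := by
    have e5 : ‖Φ.G x.1 x.2‖ * Real.exp (-(ε * c)) / (2 * c) =
        ‖Φ.G x.1 x.2‖ * (Real.exp (-(ε * c)) / (2 * c)) := by field_simp
    have e6 : K0 * ((‖Φ.G x.1 x.2‖ * Real.exp (-(c - Φ.A) * R)) * Real.exp (ε * c)) =
        ‖Φ.G x.1 x.2‖ * (K0 * (Real.exp (-(c - Φ.A) * R) * Real.exp (ε * c))) := by ring
    rw [e5, e6] at k3
    have k5 := le_of_mul_le_mul_left k3 hGpos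
    rw [div_le_iff₀ (by positivity)] at k5
    linarith
  -- exponent bookkeeping
  have k6 : Real.exp (-(c - Φ.A) * R) ≤ Real.exp (Φ.A * 3) * Real.exp (-(δ / 2 * c)) := by
    rw [← Real.exp_add]
    apply Real.exp_le_exp.2
    nlinarith
  have k7 : 2 * c * (K0 * (Real.exp (-(c - Φ.A) * R) * Real.exp (ε * c))) ≤
      2 * c * (K0 * ((Real.exp (Φ.A * 3) * Real.exp (-(δ / 2 * c))) * Real.exp (ε * c))) := by gcongr
  have k8 : 1 ≤ K * (c * Real.exp (-(δ / 4 * c))) := by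
    have k9 := k4.trans k7
    have k10 : Real.exp (-(ε * c)) * Real.exp (ε * c) = 1 := by rw [← Real.exp_add]; simp
    have k11 : 1 ≤ (2 * c * (K0 * ((Real.exp (Φ.A * 3) * Real.exp (-(δ / 2 * c))) *
        Real.exp (ε * c)))) * Real.exp (ε * c) := by
      calc (1:ℝ) = Real.exp (-(ε * c)) * Real.exp (ε * c) := k10.symm
        _ ≤ _ := by gcongr
    have k12 : Real.exp (-(δ / 2 * c)) * Real.exp (ε * c) * Real.exp (ε * c) ≤
        Real.exp (-(δ / 4 * c)) := by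
      rw [← Real.exp_add, ← Real.exp_add]
      apply Real.exp_le_exp.2
      nlinarith
    calc (1:ℝ) ≤ _ := k11
      _ = (2 * K0 * Real.exp (Φ.A * 3)) *
          (c * (Real.exp (-(δ / 2 * c)) * Real.exp (ε * c) * Real.exp (ε * c))) := by ring
      _ ≤ K * (c * Real.exp (-(δ / 4 * c))) := by
          have : 2 * K0 * Real.exp (Φ.A * 3) ≤ K := by rw [hK]; linarith
          gcongr
  have : K * (c * Real.exp (-(δ / 4 * c))) ≤ 1/2 := hnx
  linarith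

/-- **Abstract theorem.** -/
theorem nz_iff (hV : Φ.Vert) (m n : ℕ) {σ0 : ℝ} (h0 : 1/2 ≤ σ0) (h1 : σ0 < 2) :
    Φ.NZ m σ0 ↔ Φ.NZ n σ0 := by
  have h : ∀ k : ℕ, Φ.NZ k σ0 ↔ Φ.NZ 0 σ0 := by
    intro k
    induction k with
    | zero => exact Iff.rfl
    | succ k ih =>
      rw [← ih]
      exact ⟨Φ.step_down hV k h0 h1, Φ.step_up k h0 h1⟩
  rw [h m, h n]

end BFam

end Vale.Agent.P026.H832
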