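import Vale.Agent.P026.H832.B7
import Vale.Agent.P026.H832.F3

/-!
The gamma factor of `ζ(1 - w)`.
-/

open Complex Filter Metric Set Topology P026.H725
open scoped Real

namespace Vale.Agent.P026.H832

/-- `ζ(1 - w)` -/
noncomputable def zf (w : ℂ) : ℂ := riemannZeta (1 - w)

/-- the factor of the functional equation -/
noncomputable def XG (w : ℂ) : ℂ := Gammaℂ w * Complex.cos (π * w / 2)

/-- its logarithmic derivative -/
noncomputable def aX (w : ℂ) : ℂ :=
  -((Real.log (2 * π) : ℝ) : ℂ) + Complex.digamma w - π / 2 * Complex.tan (π * w / 2)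

lemma cos_sin_bound {z : ℂ} (hz : 1 ≤ |z.im|) : Complex.cos z ≠ 0 ∧ ‖Complex.tan z‖ ≤ 2 := by
  set P : ℝ := Real.exp |z.im| with hP
  set Q : ℝ := Real.exp (-|z.im|) with hQ
  have hPQ : P * Q = 1 := by rw [hP, hQ, ← Real.exp_add]; simp
  have hPp : 0 < P := Real.exp_pos _
  have hQp : 0 < Q := Real.exp_pos _
  have hP2 : 2 ≤ P := by
    have := Real.add_one_le_exp |z.im|
    linarith
  have hQ2 : Q ≤ P / 4 := by nlinarith
  have e1 : ‖Complex.exp (z * I)‖ = Real.exp (-z.im) := by
    rw [Complex.norm_exp]; simp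
  have e2 : ‖Complex.exp (-z * I)‖ = Real.exp (z.im) := by
    rw [Complex.norm_exp]; simp
  have hsum : ‖Complex.exp (z * I)‖ + ‖Complex.exp (-z * I)‖ = P + Q := by
    rw [e1, e2]
    rcases abs_cases z.im with ⟨h, -⟩ | ⟨h, -⟩
    · rw [hP, hQ, h]; ring
    · rw [hP, hQ, h, neg_neg]
  have hdiff : P - Q ≤ ‖Complex.exp (z * I) + Complex.exp (-z * I)‖ := by
    have h1 := norm_sub_le_norm_add (Complex.exp (z * I)) (Complex.exp (-z * I))
    have h2 := norm_sub_le_norm_add (Complex.exp (-z * I)) (Complex.exp (z * I))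
    rw [add_comm] at h2
    rw [e1, e2] at h1 h2
    rcases abs_cases z.im with ⟨h, -⟩ | ⟨h, -⟩
    · rw [hP, hQ, h]; exact h2
    · rw [hP, hQ, h, neg_neg]; exact h1
  have hcos : 3 / 8 * P ≤ ‖Complex.cos z‖ := by
    unfold Complex.cos
    rw [norm_div, Complex.norm_ofNat]
    linarith
  have hsin : ‖Complex.sin z‖ ≤ 5 / 8 * P := by
    unfold Complex.sin
    rw [norm_div, norm_mul, Complex.norm_I, Complex.norm_ofNat, mul_one]
    have := norm_sub_le (Complex.exp (-z * I)) (Complex.exp (z * I))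
    linarith
  have hc0 : Complex.cos z ≠ 0 := by
    intro h
    rw [h, norm_zero] at hcos
    linarith
  refine ⟨hc0, ?_⟩
  rw [Complex.tan_eq_sin_div_cos, norm_div, div_le_iff₀ (norm_pos_iff.2 hc0)]
  linarith

lemma im_half_pi {w : ℂ} (hw : 1 ≤ |w.im|) : 1 ≤ |(π * w / 2 : ℂ).im| := by
  have : (π * w / 2 : ℂ).im = π * w.im / 2 := by
    have e : (π * w / 2 : ℂ) = ((π / 2 : ℝ) : ℂ) * w := by push_cast; ring
    rw [e, Complex.im_ofReal_mul]; ring
  rw [this, abs_div, abs_mul, abs_of_pos Real.pi_pos, abs_two]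
  have := Real.pi_gt_three
  nlinarith

lemma zf_eq {w : ℂ} (hw : 0 < w.re) (h1 : w ≠ 1) : zf w = XG w * riemannZeta w := by
  unfold zf XG
  rw [riemannZeta_one_sub (fun n h => ?_) h1, Gammaℂ_def]
  rw [h] at hw
  simp at hw
  have : (0:ℝ) ≤ n := by positivity
  linarith

lemma Gammaℂ_ne_zero {w : ℂ} (hw : 0 < w.re) : Gammaℂ w ≠ 0 := by
  rw [Gammaℂ_def]
  refine mul_ne_zero (mul_ne_zero two_ne_zero ?_) (Complex.Gamma_ne_zero_of_re_pos hw)
  rw [Complex.cpow_def_of_ne_zero]
  · exact Complex.exp_ne_zero _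
  · have := Real.pi_ne_zero
    exact mul_ne_zero two_ne_zero (by exact_mod_cast this)

lemma XG_ne_zero {w : ℂ} (hw : 0 < w.re) (h1 : 1 ≤ |w.im|) : XG w ≠ 0 :=
  mul_ne_zero (Gammaℂ_ne_zero hw) (cos_sin_bound (im_half_pi h1)).1

lemma hasDerivAt_XG {w : ℂ} (hw : 0 < w.re) (h1 : 1 ≤ |w.im|) : HasDerivAt XG (aX w * XG w) w := by
  have hne : ∀ m : ℕ, w ≠ -m := fun m h => by
    rw [h] at hw
    simp at hw
    have : (0:ℝ) ≤ m := by positivity
    linarith
  have hG0 := Complex.Gamma_ne_zero_of_re_pos hw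
  have hGam : HasDerivAt Complex.Gamma (Complex.digamma w * Complex.Gamma w) w := by
    have := (Complex.differentiableAt_Gamma w hne).hasDerivAt
    refine this.congr_deriv ?_
    unfold Complex.digamma
    rw [logDeriv_apply]
    field_simp
  have hpi : (2 * π : ℂ) ≠ 0 := by
    have := Real.pi_ne_zero
    exact mul_ne_zero two_ne_zero (by exact_mod_cast this)
  have hpow : HasDerivAt (fun w : ℂ => (2 * π : ℂ) ^ (-w)) (-((Real.log (2 * π) : ℝ) : ℂ) * (2 * π : ℂ) ^ (-w)) w := by
    have := ((hasDerivAt_id w).neg).const_cpow (c := (2 * π : ℂ)) (Or.inl hpi)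
    refine this.congr_deriv ?_
    have e : Complex.log (2 * π : ℂ) = ((Real.log (2 * π) : ℝ) : ℂ) := by
      rw [Complex.ofReal_log (by positivity)]
      push_cast
      rfl
    rw [e]
    simp
    ring
  have hcosd : HasDerivAt (fun w : ℂ => Complex.cos (π * w / 2)) (-(π / 2) * Complex.sin (π * w / 2)) w := by
    have h2 : HasDerivAt (fun w : ℂ => (π * w / 2 : ℂ)) (π / 2) w := by
      have := ((hasDerivAt_id w).const_mul (π : ℂ)).div_const 2
      simpa using this
    refine ((Complex.hasDerivAt_cos _).comp w h2).congr_deriv ?_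
    ring
  have hc0 := (cos_sin_bound (im_half_pi h1)).1
  have hGC : HasDerivAt Gammaℂ ((-((Real.log (2 * π) : ℝ) : ℂ) + Complex.digamma w) * Gammaℂ w) w := by
    have := (hpow.const_mul 2).mul hGam
    have e : Gammaℂ = fun w => 2 * (2 * π : ℂ) ^ (-w) * Complex.Gamma w := by
      funext z; exact Gammaℂ_def z
    rw [e]
    refine this.congr_deriv ?_
    ring
  refine (hGC.mul hcosd).congr_deriv ?_
  unfold aX XG
  rw [Complex.tan_eq_sin_div_cos]
  field_simp
  ring

lemma differentiableAt_aX {w : ℂ} (hw : 0 < w.re) (h1 : 1 ≤ |w.im|) : DifferentiableAt ℂ aX w := by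
  have hc0 := (cos_sin_bound (im_half_pi h1)).1
  have hne : ∀ m : ℕ, w ≠ -m := fun m h => by
    rw [h] at hw
    simp at hw
    have : (0:ℝ) ≤ m := by positivity
    linarith
  have h2 : DifferentiableAt ℂ Complex.digamma w := by
    have hG : DifferentiableOn ℂ Complex.Gamma {z | 0 < z.re} := fun z hz =>
      (Complex.differentiableAt_Gamma z (fun m => ne_neg_nat hz m)).differentiableWithinAt
    have ho : IsOpen {z : ℂ | 0 < z.re} := isOpen_lt continuous_const Complex.continuous_re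
    have hG' := (hG.deriv ho).differentiableAt (ho.mem_nhds hw)
    exact hG'.div (hG.differentiableAt (ho.mem_nhds hw)) (Complex.Gamma_ne_zero_of_re_pos hw)
  have h3 : DifferentiableAt ℂ (fun w : ℂ => Complex.tan (π * w / 2)) w := by
    have h4 : DifferentiableAt ℂ Complex.tan (π * w / 2) := Complex.differentiableAt_tan.2 hc0
    have h5 : DifferentiableAt ℂ (fun w : ℂ => (π * w / 2 : ℂ)) w :=
      (differentiableAt_id.const_mul (π : ℂ)).div_const 2
    exact h4.comp w h5
  unfold aX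
  exact ((differentiableAt_const _).add h2).sub (h3.const_mul _)

lemma log_two_pi_bounds : 0 ≤ Real.log (2 * π) ∧ Real.log (2 * π) ≤ 2.1 := by
  have h1 := Real.pi_gt_three
  have h2 := Real.pi_lt_four
  exact ⟨Real.log_nonneg (by linarith),
    (Real.log_le_log (by positivity) (by linarith)).trans log_eight_le⟩

lemma norm_aX_sub_digamma_le {w : ℂ} (h1 : 1 ≤ |w.im|) :
    ‖aX w - Complex.digamma w‖ ≤ 7 := by
  have e : aX w - Complex.digamma w = -((Real.log (2 * π) : ℝ) : ℂ) - ((π / 2 : ℝ) : ℂ) * Complex.tan (π * w / 2) := by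
    unfold aX; push_cast; ring
  rw [e]
  refine (norm_sub_le _ _).trans ?_
  rw [norm_neg, norm_mul, Complex.norm_real, Complex.norm_real, Real.norm_of_nonneg log_two_pi_bounds.1,
    Real.norm_of_nonneg (by positivity)]
  have h2 := (cos_sin_bound (im_half_pi h1)).2
  have h3 := log_two_pi_bounds.2
  have h4 := Real.pi_lt_four
  have h5 : π / 2 * ‖Complex.tan (π * w / 2)‖ ≤ π / 2 * 2 := by gcongr
  have h6 := Real.pi_lt_d2
  linarith

/-- lower bound for `Re (X'/X)` -/
lemma re_aX_ge {w : ℂ} (hw : 1/2 ≤ w.re) (h1 : 1 ≤ |w.im|) :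
    Real.log (|w.im| + 1) - 30 ≤ (aX w).re := by
  have h2 : ‖Complex.digamma w - Complex.log w‖ ≤ 20 := norm_digamma_sub_log_le (by linarith)
  have h3 := norm_aX_sub_digamma_le h1
  have h4 : ‖aX w - Complex.log w‖ ≤ 27 := by
    have := norm_add_le (aX w - Complex.digamma w) (Complex.digamma w - Complex.log w)
    rw [sub_add_sub_cancel] at this
    linarith
  have h5 := (Complex.abs_re_le_norm _).trans h4
  rw [abs_le, Complex.sub_re, Complex.log_re] at h5
  have h6 : Real.log ((|w.im| + 1) / 2) ≤ Real.log ‖w‖ := by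
    apply Real.log_le_log (by positivity)
    have := Complex.abs_im_le_norm w
    linarith
  rw [Real.log_div (by positivity) (by norm_num)] at h6
  have h7 := Real.log_two_lt_d9
  linarith

lemma norm_aX_sub_le {w : ℂ} (hw : 1/2 ≤ w.re) (hw8 : w.re ≤ 8) (h1 : 1 ≤ |w.im|) :
    ‖aX w - (Real.log (|w.im| + 1) : ℝ)‖ ≤ 40 := by
  have h2 : ‖Complex.digamma w - Complex.log w‖ ≤ 20 := norm_digamma_sub_log_le (by linarith)
  have h3 := norm_aX_sub_digamma_le h1
  have h4 : ‖aX w - Complex.log w‖ ≤ 27 := by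
    have := norm_add_le (aX w - Complex.digamma w) (Complex.digamma w - Complex.log w)
    rw [sub_add_sub_cancel] at this
    linarith
  have h5 : ‖Complex.log w - (Real.log (|w.im| + 1) : ℝ)‖ ≤ 8 := by
    have e : Complex.log w - (Real.log (|w.im| + 1) : ℝ) =
        ((Real.log ‖w‖ - Real.log (|w.im| + 1) : ℝ) : ℂ) + (Complex.arg w : ℂ) * I := by
      rw [Complex.log]; push_cast; ring
    rw [e]
    refine (norm_add_le _ _).trans ?_
    rw [Complex.norm_real, norm_mul, Complex.norm_real, Complex.norm_I, mul_one, Real.norm_eq_abs,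
      Real.norm_eq_abs]
    have h6 := Complex.abs_arg_le_pi w
    have h7 := Real.pi_lt_four
    have h8 : |Real.log ‖w‖ - Real.log (|w.im| + 1)| ≤ 3 := by
      have n1 := Complex.abs_im_le_norm w
      have n2 : ‖w‖ ≤ 8 * (|w.im| + 1) := by
        refine (Complex.norm_le_abs_re_add_abs_im _).trans ?_
        rw [abs_of_nonneg (by linarith : 0 ≤ w.re)]
        linarith
      have npos : 0 < ‖w‖ := by linarith
      have l1 := Real.log_le_log npos n2
      rw [Real.log_mul (by norm_num) (by positivity)] at l1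
      have l2 : Real.log ((|w.im| + 1) / 2) ≤ Real.log ‖w‖ := Real.log_le_log (by positivity) (by linarith)
      rw [Real.log_div (by positivity) (by norm_num)] at l2
      have l3 := log_eight_le
      have l4 := Real.log_two_lt_d9
      rw [abs_le]
      constructor <;> linarith
    have h9 := Real.pi_lt_d2
    linarith
  have := norm_add_le (aX w - Complex.log w) (Complex.log w - (Real.log (|w.im| + 1) : ℝ))
  rw [sub_add_sub_cancel] at this
  linarith

lemma XG_conj (w : ℂ) : XG (starRingEnd ℂ w) = starRingEnd ℂ (XG w) := by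
  unfold XG
  rw [Gammaℂ_def, Gammaℂ_def, map_mul, map_mul, map_mul, Complex.Gamma_conj, ← Complex.cos_conj]
  have e1 : starRingEnd ℂ (2:ℂ) = 2 := Complex.conj_ofNat 2
  have e2 : starRingEnd ℂ (π * w / 2 : ℂ) = π * starRingEnd ℂ w / 2 := by
    rw [map_div₀, map_mul, Complex.conj_ofReal, e1]
  have e3 : starRingEnd ℂ ((2 * π : ℂ) ^ (-w)) = (2 * π : ℂ) ^ (-(starRingEnd ℂ w)) := by
    rw [Complex.cpow_def_of_ne_zero, Complex.cpow_def_of_ne_zero]
    · rw [← Complex.exp_conj, map_mul, map_neg]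
      have : Complex.log (2 * π : ℂ) = ((Real.log (2 * π) : ℝ) : ℂ) := by
        rw [Complex.ofReal_log (by positivity)]
        push_cast
        rfl
      rw [this, Complex.conj_ofReal]
    all_goals
      have := Real.pi_ne_zero
      exact mul_ne_zero two_ne_zero (by exact_mod_cast this)
  rw [e1, e2, e3]

lemma XG_mul {w : ℂ} (h0 : 0 < w.re) (h1 : w.re < 1) : XG w * XG (1 - w) = 1 := by
  have a1 : ∀ n : ℕ, w ≠ -(2 * n + 1) := fun n h => by
    rw [h] at h0
    simp at h0
    have : (0:ℝ) ≤ n := by positivity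
    linarith
  have h0' : 0 < (1 - w).re := by simp; linarith
  have a2 : ∀ n : ℕ, 1 - w ≠ -(2 * n + 1) := fun n h => by
    rw [h] at h0'
    simp at h0'
    have : (0:ℝ) ≤ n := by positivity
    linarith
  have e1 := Gammaℝ_div_Gammaℝ_one_sub a1
  have e2 := Gammaℝ_div_Gammaℝ_one_sub a2
  rw [sub_sub_cancel] at e2
  unfold XG
  rw [← e1, ← e2]
  have g1 := Complex.Gammaℝ_ne_zero_of_re_pos h0
  have g2 := Complex.Gammaℝ_ne_zero_of_re_pos h0'
  field_simp

/-- `|X(1/2 + i t)| = 1` -/
lemma norm_XG_half {w : ℂ} (hw : w.re = 1/2) : ‖XG w‖ = 1 := by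
  have h1 : 1 - w = starRingEnd ℂ w := by
    apply Complex.ext
    · simp [hw]; norm_num
    · simp
  have h2 := XG_mul (w := w) (by rw [hw]; norm_num) (by rw [hw]; norm_num)
  rw [h1, XG_conj] at h2
  have h3 : ‖XG w‖ * ‖XG w‖ = 1 := by
    have := congrArg norm h2
    rwa [norm_mul, RCLike.norm_conj, norm_one] at this
  nlinarith [norm_nonneg (XG w)]

end Vale.Agent.P026.H832
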