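import Vale.Agent.P026.H832.B8

/-!
The instance of the abstract theorem for `ζ(1 - w)`.
-/

open Complex Filter Metric Set Topology P026.H725
open scoped Real

namespace Vale.Agent.P026.H832

lemma zf_analyticAt {w : ℂ} (hw : w ≠ 0) : AnalyticAt ℂ zf w := by
  have ho : IsOpen {w : ℂ | w ≠ 0} := isOpen_ne
  have hd : DifferentiableOn ℂ zf {w : ℂ | w ≠ 0} := fun z hz => by
    have h1 : DifferentiableAt ℂ riemannZeta (1 - z) := differentiableAt_riemannZeta (by
      intro h; apply hz; linear_combination -h)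
    exact (h1.comp z (by fun_prop : DifferentiableAt ℂ (fun z : ℂ => 1 - z) z)).differentiableWithinAt
  exact hd.analyticAt (ho.mem_nhds hw)

lemma zf_iter (m : ℕ) {w : ℂ} (hw : w ≠ 0) :
    HasDerivAt (iteratedDeriv m zf) (iteratedDeriv (m + 1) zf w) w := by
  rw [iteratedDeriv_succ, iteratedDeriv_eq_iterate]
  exact ((zf_analyticAt hw).iterated_deriv m |>.differentiableAt.hasDerivAt)

lemma ne_zero_of_im {w : ℂ} (h : 1 ≤ |w.im|) : w ≠ 0 := by
  rintro rfl
  simp at h
  linarith

lemma ne_one_of_im {w : ℂ} (h : 1 ≤ |w.im|) : w ≠ 1 := by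
  rintro rfl
  simp at h
  linarith

lemma norm_zeta_le_im {w : ℂ} (hw : 1/2 ≤ w.re) (hw8 : w.re ≤ 8) (h1 : 1 ≤ |w.im|) :
    ‖riemannZeta w‖ ≤ 18 * (|w.im| + 1) := by
  have h1' := norm_zeta_sub_le (s := w) (by linarith) (ne_one_of_im h1)
  have h2 : ‖w‖ ≤ 8 * (|w.im| + 1) := by
    refine (Complex.norm_le_abs_re_add_abs_im _).trans ?_
    rw [abs_of_nonneg (by linarith : 0 ≤ w.re)]
    linarith
  have hy : 0 < |w.im| + 1 := by positivity
  have h3 : ‖(1:ℂ) / (w - 1)‖ ≤ 1 := by
    rw [norm_div, norm_one]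
    apply div_le_one_of_le₀ _ (norm_nonneg _)
    have := Complex.abs_im_le_norm (w - 1)
    simp at this
    linarith
  have h7 : ‖w‖ / w.re ≤ 2 * ‖w‖ := by
    rw [div_le_iff₀ (by linarith)]
    nlinarith [norm_nonneg w]
  calc ‖riemannZeta w‖ = ‖(riemannZeta w - 1 / (w - 1)) + 1 / (w - 1)‖ := by ring_nf
    _ ≤ ‖riemannZeta w - 1 / (w - 1)‖ + ‖(1:ℂ) / (w - 1)‖ := norm_add_le _ _
    _ ≤ (1 + 2 * (8 * (|w.im| + 1))) + 1 := by gcongr; linarith
    _ ≤ 18 * (|w.im| + 1) := by nlinarith

/-- **`ζ(1 - w)`** -/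
noncomputable def zFam : BFam Unit where
  q _ := 1
  one_le_q _ := le_rfl
  F _ := zf
  G _ := XG
  L _ := riemannZeta
  a _ := aX
  A := 60 + Bz
  A_pos := by have := Bz_nonneg; linarith
  F_iter _ m w hw := zf_iter m (by
    rintro rfl
    simp at hw
    linarith)
  fac := big_one (T := 1) fun x hT hx => zf_eq (by linarith) (ne_one_of_im hT)
  G_ne := big_one (T := 1) fun x hT hx => XG_ne_zero (by linarith) hT
  G_deriv := big_one (T := 1) fun x hT hx => hasDerivAt_XG (by linarith) hT
  a_diff := big_one (T := 1) fun x hT hx => differentiableAt_aX (by linarith) hT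
  a_re := big_one (T := 1) fun x hT hx => by
    have h1 := re_aX_ge hx hT
    have h2 : cc (fun _ : Unit => (1 : ℝ)) x = Real.log (|x.2.im| + 1) := by
      unfold cc; rw [one_mul]
    have h3 := Bz_nonneg
    rw [h2]
    linarith
  a_norm := big_one (T := 1) fun x hT hx hx8 => by
    have h1 := norm_aX_sub_le hx hx8 hT
    have h2 : cc (fun _ : Unit => (1 : ℝ)) x = Real.log (|x.2.im| + 1) := by
      unfold cc; rw [one_mul]
    have h3 := Bz_nonneg
    rw [h2]
    linarith
  L_growth := big_one (T := 1) fun x hT hx hx8 => by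
    have h4 := norm_zeta_le_im hx hx8 hT
    have h5 : |x.2.im| + 1 = Real.exp (cc (fun _ : Unit => (1:ℝ)) x) := by
      unfold cc
      rw [Real.exp_log (by positivity), one_mul]
    have h6 : (18:ℝ) ≤ Real.exp 19 := by
      have := Real.add_one_le_exp (19:ℝ)
      linarith
    have hc : 0 ≤ cc (fun _ : Unit => (1:ℝ)) x := by
      unfold cc
      apply Real.log_nonneg
      linarith [abs_nonneg x.2.im]
    have hB := Bz_nonneg
    refine h4.trans ?_
    rw [h5]
    calc 18 * Real.exp (cc (fun _ : Unit => (1:ℝ)) x) ≤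
        Real.exp 19 * Real.exp (cc (fun _ : Unit => (1:ℝ)) x) := by gcongr
      _ = Real.exp (19 + cc (fun _ : Unit => (1:ℝ)) x) := by rw [← Real.exp_add]
      _ ≤ _ := by
        apply Real.exp_le_exp.2
        nlinarith
  L_bdd := Eventually.of_forall fun x hx => by
    have h2 : ‖riemannZeta x.2‖ ≤ Bz := norm_zeta_le_tsum hx
    linarith
  L_one := Eventually.of_forall fun x hx => by
    have h1 := norm_zeta_sub_one_le hx
    linarith

/-- upper bound for the gamma factor -/
lemma XG_le {w : ℂ} (hw : 1/2 ≤ w.re) (hw8 : w.re ≤ 8) (h1 : 1 ≤ |w.im|) :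
    ‖XG w‖ ≤ Real.exp ((Real.log (|w.im| + 1) + 40) * (w.re - 1/2)) := by
  set p : ℂ := ⟨1/2, w.im⟩ with hp
  have hre : ∀ u : ℝ, (p + (u:ℂ)).re = 1/2 + u := fun u => by simp [hp]
  have him : ∀ u : ℝ, (p + (u:ℂ)).im = w.im := fun u => by simp [hp]
  have h := norm_le_exp (g := fun u : ℝ => XG (p + (u:ℂ))) (α := fun u => aX (p + (u:ℂ)))
    (U := w.re - 1/2) (m := Real.log (|w.im| + 1) + 40)
    (fun u hu => by
      have h2 := hasDerivAt_XG (w := p + (u:ℂ)) (by rw [hre]; linarith [hu.1]) (by rw [him]; exact h1)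
      have h3 : HasDerivAt (fun u : ℝ => p + (u:ℂ)) 1 u := by
        simpa using (Complex.ofRealCLM.hasDerivAt (x := u)).const_add p
      have := h2.scomp u h3
      rw [one_smul] at this
      exact this)
    (fun u hu => by
      have h2 := norm_aX_sub_le (w := p + (u:ℂ)) (by rw [hre]; linarith [hu.1])
        (by rw [hre]; linarith [hu.2]) (by rw [him]; exact h1)
      have h3 := (Complex.re_le_norm _).trans h2
      rw [Complex.sub_re, him, Complex.ofReal_re] at h3
      linarith) (w.re - 1/2) ⟨by linarith, le_rfl⟩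
  have e1 : p + ((w.re - 1/2 : ℝ) : ℂ) = w := by
    apply Complex.ext <;> simp [hp]
  simp only [Complex.ofReal_zero, add_zero] at h
  rw [e1, norm_XG_half (w := p) (by simp [hp]), one_mul] at h
  exact h

/-- lower bound for the gamma factor -/
lemma XG_ge {w : ℂ} (hw : 1/2 ≤ w.re) (h1 : 1 ≤ |w.im|) :
    Real.exp ((Real.log (|w.im| + 1) - 30) * (w.re - 1/2)) ≤ ‖XG w‖ := by
  set p : ℂ := ⟨1/2, w.im⟩ with hp
  have hre : ∀ u : ℝ, (p + (u:ℂ)).re = 1/2 + u := fun u => by simp [hp]
  have him : ∀ u : ℝ, (p + (u:ℂ)).im = w.im := fun u => by simp [hp]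
  have h := norm_le_exp (g := fun u : ℝ => (XG (p + (u:ℂ)))⁻¹) (α := fun u => -(aX (p + (u:ℂ))))
    (U := w.re - 1/2) (m := -(Real.log (|w.im| + 1) - 30))
    (fun u hu => by
      have h2 := hasDerivAt_XG (w := p + (u:ℂ)) (by rw [hre]; linarith [hu.1]) (by rw [him]; exact h1)
      have h0 := XG_ne_zero (w := p + (u:ℂ)) (by rw [hre]; linarith [hu.1]) (by rw [him]; exact h1)
      have h3 : HasDerivAt (fun u : ℝ => p + (u:ℂ)) 1 u := by
        simpa using (Complex.ofRealCLM.hasDerivAt (x := u)).const_add p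
      have h4 : HasDerivAt (fun u : ℝ => XG (p + (u:ℂ))) (aX (p + (u:ℂ)) * XG (p + (u:ℂ))) u := by
        have := h2.scomp u h3
        rw [one_smul] at this
        exact this
      refine (h4.fun_inv h0).congr_deriv ?_
      field_simp)
    (fun u hu => by
      have h2 := re_aX_ge (w := p + (u:ℂ)) (by rw [hre]; linarith [hu.1])
        (by rw [him]; exact h1)
      rw [him] at h2
      rw [Complex.neg_re]
      linarith) (w.re - 1/2) ⟨by linarith, le_rfl⟩
  have e1 : p + ((w.re - 1/2 : ℝ) : ℂ) = w := by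
    apply Complex.ext <;> simp [hp]
  simp only [Complex.ofReal_zero, add_zero] at h
  rw [e1, norm_inv, norm_inv, norm_XG_half (w := p) (by simp [hp]), inv_one, one_mul, neg_mul,
    Real.exp_neg] at h
  have h5 : 0 < ‖XG w‖ := norm_pos_iff.2 (XG_ne_zero (by linarith) h1)
  exact (inv_le_inv₀ h5 (Real.exp_pos _)).1 h

/-- growth of `ζ(1 - w)` in a strip -/
lemma zf_growth {z : ℂ} (h0 : -3/2 ≤ z.re) (h5 : z.re ≤ 5/2) (h1 : 1 ≤ |z.im|) :
    ‖zf z‖ ≤ Real.exp (99 + 3 * Real.log (|z.im| + 1)) := by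
  have hy : 0 < |z.im| + 1 := by positivity
  have hl : 0 ≤ Real.log (|z.im| + 1) := Real.log_nonneg (by linarith)
  have h18 : (18:ℝ) ≤ Real.exp 19 := by
    have := Real.add_one_le_exp (19:ℝ)
    linarith
  have hexp : 18 * (|z.im| + 1) ≤ Real.exp (19 + Real.log (|z.im| + 1)) := by
    rw [Real.exp_add, Real.exp_log hy]
    gcongr
  rcases le_or_gt z.re (1/2) with h | h
  · have h2 : ‖riemannZeta (1 - z)‖ ≤ 18 * (|z.im| + 1) := by
      have := norm_zeta_le_im (w := 1 - z) (by simp; linarith) (by simp; linarith) (by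
        simpa using h1)
      simpa using this
    refine (h2.trans hexp).trans (Real.exp_le_exp.2 ?_)
    linarith
  · rw [zf_eq (by linarith) (ne_one_of_im h1), norm_mul]
    have h2 := norm_zeta_le_im (w := z) (by linarith) (by linarith) h1
    have h3 := XG_le (w := z) (by linarith) (by linarith) h1
    calc ‖XG z‖ * ‖riemannZeta z‖ ≤ Real.exp ((Real.log (|z.im| + 1) + 40) * (z.re - 1/2)) *
          Real.exp (19 + Real.log (|z.im| + 1)) := by
            gcongr
            exact h2.trans hexp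
      _ = Real.exp ((Real.log (|z.im| + 1) + 40) * (z.re - 1/2) + (19 + Real.log (|z.im| + 1))) := by
            rw [← Real.exp_add]
      _ ≤ _ := by
        apply Real.exp_le_exp.2
        nlinarith

lemma diffContOnCl_zf {w : ℂ} {r : ℝ} (hr : 0 < r) (h : ∀ z ∈ closedBall w r, z ≠ 0) :
    DiffContOnCl ℂ zf (ball w r) := by
  refine DifferentiableOn.diffContOnCl fun z hz => ?_
  rw [closure_ball w hr.ne'] at hz
  exact (zf_analyticAt (h z hz)).differentiableAt.differentiableWithinAt

/-- growth of the derivatives in a strip -/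
lemma iter_growth (m : ℕ) {w : ℂ} (h0 : -1 ≤ w.re) (h5 : w.re ≤ 2) (h1 : 2 ≤ |w.im|) :
    ‖iteratedDeriv m zf w‖ ≤ m.factorial * 2 ^ m * Real.exp (102 + 3 * Real.log (|w.im| + 1)) := by
  have him : ∀ z ∈ closedBall w (1/2), 1 ≤ |z.im| ∧ |z.im| ≤ |w.im| + 1 ∧
      |z.re - w.re| ≤ 1/2 := fun z hz => by
    rw [mem_closedBall, dist_eq_norm] at hz
    have h2 := (Complex.abs_im_le_norm (z - w)).trans hz
    have h4 := (Complex.abs_re_le_norm (z - w)).trans hz
    rw [Complex.sub_im] at h2
    rw [Complex.sub_re] at h4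
    have h3 := abs_sub_abs_le_abs_sub w.im z.im
    have h6 := abs_sub_abs_le_abs_sub z.im w.im
    rw [abs_sub_comm] at h3
    exact ⟨by linarith, by linarith, h4⟩
  have h := Complex.norm_iteratedDeriv_le_of_forall_mem_sphere_norm_le (n := m) (f := zf) (c := w)
    (R := 1/2) (C := Real.exp (102 + 3 * Real.log (|w.im| + 1))) (by norm_num)
    (diffContOnCl_zf (by norm_num) fun z hz => ne_zero_of_im (him z hz).1)
    (fun z hz => by
      obtain ⟨a, b, c⟩ := him z (sphere_subset_closedBall hz)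
      rw [abs_le] at c
      refine (zf_growth (by linarith) (by linarith) a).trans (Real.exp_le_exp.2 ?_)
      have h2 : Real.log (|z.im| + 1) ≤ Real.log (|w.im| + 1) + 1 := by
        have e2 : Real.log (|w.im| + 1) + 1 = Real.log ((|w.im| + 1) * Real.exp 1) := by
          rw [Real.log_mul (by positivity) (Real.exp_pos _).ne', Real.log_exp]
        rw [e2]
        apply Real.log_le_log (by positivity)
        have := Real.add_one_le_exp (1:ℝ)
        nlinarith
      linarith)
  refine h.trans (le_of_eq ?_)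
  rw [div_pow, one_pow]
  field_simp

/-- boundedness of the derivatives on `Re w = -1` -/
lemma iter_left (m : ℕ) {w : ℂ} (h0 : w.re = -1) :
    ‖iteratedDeriv m zf w‖ ≤ m.factorial * 2 ^ m * Bz := by
  have him : ∀ z ∈ closedBall w (1/2), z.re ≤ -1/2 := fun z hz => by
    rw [mem_closedBall, dist_eq_norm] at hz
    have h4 := (Complex.abs_re_le_norm (z - w)).trans hz
    rw [Complex.sub_re, abs_le] at h4
    linarith
  have h := Complex.norm_iteratedDeriv_le_of_forall_mem_sphere_norm_le (n := m) (f := zf) (c := w)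
    (R := 1/2) (C := Bz) (by norm_num)
    (diffContOnCl_zf (by norm_num) fun z hz => by
      rintro rfl
      have := him 0 hz
      simp at this
      linarith)
    (fun z hz => by
      have a := him z (sphere_subset_closedBall hz)
      exact norm_zeta_le_tsum (by simp; linarith))
  refine h.trans (le_of_eq ?_)
  rw [div_pow, one_pow]
  field_simp

end Vale.Agent.P026.H832
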