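import Mathlib

/-!
Definitions for the theorem that the quasi-Riemann hypothesis is invariant under differentiation.
-/

namespace Vale.Agent.P026.H832

/-- Riemann's `ξ`-function (without the conventional factor `1/2`): the entire function
`ξ(s) = s (s - 1) π^{-s/2} Γ(s/2) ζ(s)`, written with Mathlib's entire function
`completedRiemannZeta₀ s = π^{-s/2} Γ(s/2) ζ(s) + 1/s + 1/(1 - s)`. -/
noncomputable def xi (s : ℂ) : ℂ := s * (s - 1) * completedRiemannZeta₀ s + 1

/-- The completed `L`-function `Λ(s, χ) = (q/π)^{s/2} Γ(s/2) L(s, χ)` (`χ` even), respectively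
`q^{s/2} π^{-(s+1)/2} Γ((s+1)/2) L(s, χ)` (`χ` odd), of a Dirichlet character modulo `q`. -/
noncomputable def Lam {q : ℕ} [NeZero q] (χ : DirichletCharacter ℂ q) (s : ℂ) : ℂ :=
  (q : ℂ) ^ (s / 2) * χ.completedLFunction s

end Vale.Agent.P026.H832
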