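import Vale.Agent.P026.H832.A8
import Vale.Agent.P026.H832.Defs
import Vale.Agent.P026.H725.GammaFactor
import Vale.Agent.P026.H725.Growth

/-!
The two instances of the abstract theorem: `ξ`, and the family of all primitive nonprincipal
Dirichlet characters.
-/

open Complex Filter Metric Set Topology P026.H725

namespace Vale.Agent.P026.H832

/-! ### bounds up to `Re ≤ 8` -/

lemma norm_half_add_le8 {w : ℂ} {κ : ℝ} (hκ : 0 ≤ κ) (hκ1 : κ ≤ 1) (hw : 1 / 2 ≤ w.re)
    (hw4 : w.re ≤ 8) : ‖(w + κ) / 2‖ ≤ 8 * (|w.im| + 1) := by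
  refine (Complex.norm_le_abs_re_add_abs_im _).trans ?_
  have h1 : ((w + κ) / 2).re = (w.re + κ) / 2 := by simp
  have h2 : ((w + κ) / 2).im = w.im / 2 := by simp
  rw [h1, h2, abs_div, abs_div, abs_two, abs_of_nonneg (by linarith : (0 : ℝ) ≤ w.re + κ)]
  have := abs_nonneg w.im
  linarith

lemma norm_digamma_half_sub_le8 {w : ℂ} {κ : ℝ} (hκ : 0 ≤ κ) (hκ1 : κ ≤ 1) (hw : 1 / 2 ≤ w.re)
    (hw4 : w.re ≤ 8) :
    ‖Complex.digamma ((w + κ) / 2) - (Real.log (|w.im| + 1) : ℝ)‖ ≤ 24 := by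
  set z : ℂ := (w + κ) / 2 with hz
  have hy : (0 : ℝ) < |w.im| + 1 := by positivity
  have hre : z.re = (w.re + κ) / 2 := by simp [hz]
  have h1 : ‖Complex.digamma z - Complex.log z‖ ≤ 20 :=
    norm_digamma_sub_log_le (by rw [hre]; linarith)
  have hlo := norm_half_add hκ hw
  have hhi := norm_half_add_le8 hκ hκ1 hw hw4
  rw [← hz] at hlo hhi
  have hz0 : 0 < ‖z‖ := lt_of_lt_of_le (by positivity) hlo
  have h2 : ‖Complex.log z - (Real.log (|w.im| + 1) : ℝ)‖ ≤ 2.1 + 1.6 := by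
    refine (Complex.norm_le_abs_re_add_abs_im _).trans ?_
    rw [Complex.sub_re, Complex.sub_im, Complex.log_re, Complex.log_im, Complex.ofReal_re,
      Complex.ofReal_im, sub_zero]
    refine add_le_add ?_ ?_
    · rw [abs_le]
      have h3 : Real.log ((|w.im| + 1) / 8) ≤ Real.log ‖z‖ :=
        Real.log_le_log (by positivity) hlo
      have h4 : Real.log ‖z‖ ≤ Real.log (8 * (|w.im| + 1)) := Real.log_le_log hz0 hhi
      rw [Real.log_div hy.ne' (by norm_num)] at h3
      rw [Real.log_mul (by norm_num) hy.ne'] at h4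
      have := log_eight_le
      constructor <;> linarith
    · have h5 : |z.arg| ≤ Real.pi / 2 := by
        rw [Complex.abs_arg_le_pi_div_two_iff, hre]
        linarith
      have := Real.pi_lt_d2
      linarith
  calc ‖Complex.digamma z - (Real.log (|w.im| + 1) : ℝ)‖
      = ‖(Complex.digamma z - Complex.log z) +
          (Complex.log z - (Real.log (|w.im| + 1) : ℝ))‖ := by congr 1; ring
    _ ≤ 20 + (2.1 + 1.6) := (norm_add_le _ _).trans (add_le_add h1 h2)
    _ ≤ 24 := by norm_num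

theorem norm_aL_sub_le8 {q κ : ℝ} (hq : 1 ≤ q) (hκ : 0 ≤ κ) (hκ1 : κ ≤ 1) {w : ℂ}
    (hw : 1 / 2 ≤ w.re) (hw4 : w.re ≤ 8) : ‖aL q κ w - (cq q w : ℝ) / 2‖ ≤ 14 := by
  have hy : (0 : ℝ) < |w.im| + 1 := by positivity
  have h1 := norm_digamma_half_sub_le8 hκ hκ1 hw hw4
  have e : aL q κ w - (cq q w : ℝ) / 2 =
      (Complex.digamma ((w + κ) / 2) - (Real.log (|w.im| + 1) : ℝ)) / 2 +
        -((Real.log Real.pi : ℝ) : ℂ) / 2 := by
    unfold aL cq
    rw [Real.log_mul (by linarith) hy.ne']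
    push_cast
    ring
  rw [e]
  refine (norm_add_le _ _).trans ?_
  rw [norm_div, norm_div, norm_neg, Complex.norm_real, Real.norm_eq_abs,
    abs_of_nonneg log_pi_nonneg, Complex.norm_ofNat]
  have := log_pi_le
  linarith

theorem norm_aXi_sub_le8 {w : ℂ} (hw : 1 / 2 ≤ w.re) (hw4 : w.re ≤ 8) (hw' : 1 ≤ |w.im|) :
    ‖aXi w - (cq 1 w : ℝ) / 2‖ ≤ 16 := by
  have h1 := norm_aL_sub_le8 (q := 1) (κ := 0) le_rfl le_rfl zero_le_one hw hw4
  have h2 := norm_inv_add_inv_le one_pos hw'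
  have e : aXi w - (cq 1 w : ℝ) / 2 = (w⁻¹ + (w - 1)⁻¹) + (aL 1 0 w - (cq 1 w : ℝ) / 2) := by
    unfold aXi
    ring
  rw [e]
  refine (norm_add_le _ _).trans ?_
  linarith

/-! ### symmetry of the digamma function -/

lemma digamma_conj (z : ℂ) : Complex.digamma (starRingEnd ℂ z) = starRingEnd ℂ (Complex.digamma z) := by
  rw [Complex.digamma_def, logDeriv_apply, logDeriv_apply]
  have h1 : deriv Complex.Gamma (starRingEnd ℂ z) = starRingEnd ℂ (deriv Complex.Gamma z) := by
    have hG : (starRingEnd ℂ) ∘ Complex.Gamma ∘ (starRingEnd ℂ) = Complex.Gamma := by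
      funext w; simp [Function.comp, Complex.Gamma_conj]
    have h2 := congrFun (deriv_conj_conj (f := Complex.Gamma)) (starRingEnd ℂ z)
    rw [hG] at h2
    simpa using h2
  rw [h1, Complex.Gamma_conj, map_div₀]

lemma aL_conj (q κ : ℝ) (w : ℂ) : aL q κ (starRingEnd ℂ w) = starRingEnd ℂ (aL q κ w) := by
  unfold aL
  have h2 : starRingEnd ℂ (2:ℂ) = 2 := Complex.conj_ofNat 2
  have : (starRingEnd ℂ w + κ) / 2 = starRingEnd ℂ ((w + κ) / 2) := by simp [h2]
  rw [this, digamma_conj]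
  simp [h2]

lemma aXi_conj (w : ℂ) : aXi (starRingEnd ℂ w) = starRingEnd ℂ (aXi w) := by
  unfold aXi
  rw [aL_conj]
  simp

/-! ### differentiability of the logarithmic derivatives -/

lemma differentiableAt_digamma {z : ℂ} (hz : 0 < z.re) : DifferentiableAt ℂ Complex.digamma z := by
  have hopen : IsOpen {z : ℂ | 0 < z.re} := isOpen_lt continuous_const Complex.continuous_re
  have hd : DifferentiableOn ℂ Complex.Gamma {z : ℂ | 0 < z.re} := fun w hw =>
    (Complex.differentiableAt_Gamma _ fun m => ne_neg_nat hw m).differentiableWithinAt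
  have h1 : DifferentiableOn ℂ (fun w => deriv Complex.Gamma w / Complex.Gamma w) {z : ℂ | 0 < z.re} :=
    (hd.deriv hopen).div hd (fun w hw => Complex.Gamma_ne_zero_of_re_pos hw)
  have h2 := (h1 z hz).differentiableAt (hopen.mem_nhds hz)
  exact h2

lemma differentiableAt_aL {q κ : ℝ} (hκ : 0 ≤ κ) {w : ℂ} (hw : 0 < w.re) :
    DifferentiableAt ℂ (aL q κ) w := by
  have h1 : DifferentiableAt ℂ (fun w : ℂ => (w + κ) / 2) w := by fun_prop
  have h2 : 0 < ((w + κ) / 2).re := by simp; linarith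
  have h3 := (differentiableAt_digamma h2).comp w h1
  exact (h3.div_const 2).const_add _

lemma differentiableAt_aXi {w : ℂ} (hw : 0 < w.re) (hw1 : w ≠ 1) : DifferentiableAt ℂ aXi w := by
  have h0 : w ≠ 0 := by rintro rfl; simp at hw
  have h1 : w - 1 ≠ 0 := sub_ne_zero.2 hw1
  have h2 : DifferentiableAt ℂ (fun w : ℂ => w⁻¹ + (w - 1)⁻¹) w :=
    (differentiableAt_inv h0).add ((differentiableAt_id.sub_const 1).inv h1)
  exact h2.add (differentiableAt_aL le_rfl hw)

/-! ### the function `ξ` -/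

theorem differentiable_xi : Differentiable ℂ xi := by
  unfold xi
  exact ((differentiable_id.mul (differentiable_id.sub_const 1)).mul
    differentiable_completedZeta₀).add_const 1

theorem xi_eq {s : ℂ} (hs : 0 < s.re) (h1 : s ≠ 1) : xi s = GXi s * riemannZeta s := by
  have h0 : s ≠ 0 := by rintro rfl; simp at hs
  have h2 : s - 1 ≠ 0 := sub_ne_zero.2 h1
  have h3 : 1 - s ≠ 0 := sub_ne_zero.2 (Ne.symm h1)
  have hG : Complex.Gammaℝ s ≠ 0 := Complex.Gammaℝ_ne_zero_of_re_pos hs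
  have e1 : xi s = s * (s - 1) * completedRiemannZeta s := by
    rw [completedRiemannZeta_eq]
    unfold xi
    field_simp
    ring
  rw [e1, riemannZeta_def_of_ne_zero h0]
  unfold GXi
  field_simp

end Vale.Agent.P026.H832
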