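import Vale.Agent.P026.H832.F1

/-!
The two instances of the abstract theorem: `ξ`, and the family of all primitive nonprincipal
Dirichlet characters.
-/

open Complex Filter Metric Set Topology P026.H725

namespace Vale.Agent.P026.H832

/-- the index type: primitive nonprincipal Dirichlet characters -/
structure PChar where
  q : ℕ
  hq : q ≠ 0
  χ : DirichletCharacter ℂ q
  prim : χ.IsPrimitive
  ne_one : χ ≠ 1

namespace PChar

instance (p : PChar) : NeZero p.q := ⟨p.hq⟩

open scoped Classical in
/-- the parity -/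
noncomputable def κ (p : PChar) : ℝ := if p.χ.Even then 0 else 1

lemma κ_nonneg (p : PChar) : 0 ≤ p.κ := by unfold κ; split_ifs <;> norm_num

lemma κ_le (p : PChar) : p.κ ≤ 1 := by unfold κ; split_ifs <;> norm_num

lemma one_le (p : PChar) : (1:ℝ) ≤ (p.q : ℝ) := by
  exact_mod_cast Nat.one_le_iff_ne_zero.2 p.hq

lemma q_ne_one (p : PChar) : p.q ≠ 1 := by
  intro h
  obtain ⟨q, hq, χ, hp, hne⟩ := p
  simp only at h
  subst h
  exact hne (DirichletCharacter.level_one χ)

lemma Lam_eq (p : PChar) {s : ℂ} (hs : 0 < s.re) :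
    Lam p.χ s = GLf p.q p.κ s * p.χ.LFunction s := by
  rw [DirichletCharacter.LFunction_eq_completed_div_gammaFactor p.χ s (Or.inr p.q_ne_one)]
  unfold Lam GLf
  by_cases h : p.χ.Even
  · have e : p.κ = 0 := by unfold κ; rw [if_pos h]
    have hG : Complex.Gammaℝ s ≠ 0 := Complex.Gammaℝ_ne_zero_of_re_pos hs
    rw [h.gammaFactor_def, e]
    push_cast
    rw [add_zero]
    field_simp
  · have ho : p.χ.Odd := (p.χ.even_or_odd).resolve_left h
    have e : p.κ = 1 := by unfold κ; rw [if_neg h]
    have hG : Complex.Gammaℝ (s + 1) ≠ 0 := Complex.Gammaℝ_ne_zero_of_re_pos (by simp; linarith)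
    rw [ho.gammaFactor_def, e]
    push_cast
    field_simp

lemma differentiable_Lam (p : PChar) : Differentiable ℂ (Lam p.χ) := by
  have hq' : (p.q : ℂ) ≠ 0 := by exact_mod_cast p.hq
  have h1 : Differentiable ℂ (fun s : ℂ => (p.q : ℂ) ^ (s / 2)) := by
    intro s
    exact (differentiableAt_id.div_const 2).const_cpow (Or.inl hq')
  exact h1.mul (DirichletCharacter.differentiable_completedLFunction p.ne_one)

end PChar

/-- the constant bounding everything to the right of `3/2` -/
noncomputable def Bz : ℝ := ∑' n : ℕ, 1 / (n : ℝ) ^ (3 / 2 : ℝ)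

lemma Bz_nonneg : 0 ≤ Bz := tsum_nonneg fun n => by positivity

/-- **The family of all primitive nonprincipal Dirichlet characters.** -/
noncomputable def chiFam : LFam PChar where
  q p := p.q
  one_le_q p := p.one_le
  F p := Lam p.χ
  G p := GLf p.q p.κ
  L p := p.χ.LFunction
  a p := aL p.q p.κ
  κ := 1/196
  κ_pos := by norm_num
  A := 20 + Bz
  A_pos := by have := Bz_nonneg; linarith
  F_diff p := p.differentiable_Lam
  fac := Eventually.of_forall fun x hx => x.1.Lam_eq (by linarith)
  G_ne := Eventually.of_forall fun x hx =>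
    GLf_ne_zero (by have := x.1.one_le; linarith) x.1.κ_nonneg (by linarith)
  G_deriv := Eventually.of_forall fun x hx => by
    have := hasDerivAt_GLf (q := x.1.q) (κ := x.1.κ) (by have := x.1.one_le; linarith)
      x.1.κ_nonneg (s := x.2) (by linarith)
    rwa [mul_comm] at this
  a_diff := Eventually.of_forall fun x hx => differentiableAt_aL x.1.κ_nonneg (by linarith)
  a_re := Eventually.of_forall fun x hx => by
    have h1 := re_aL_ge x.1.one_le x.1.κ_nonneg hx
    have h2 : cc (fun p : PChar => (p.q : ℝ)) x = cq x.1.q x.2 := rfl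
    have h3 := Bz_nonneg
    rw [h2]
    linarith
  a_norm := Eventually.of_forall fun x hx hx8 => by
    have h1 := norm_aL_sub_le8 x.1.one_le x.1.κ_nonneg x.1.κ_le hx hx8
    have h2 : cc (fun p : PChar => (p.q : ℝ)) x = cq x.1.q x.2 := rfl
    have h3 := Bz_nonneg
    rw [h2]
    push_cast
    linarith
  a_im := by
    rintro s (rfl | rfl)
    · refine Eventually.of_forall fun x hx hx4 him => ?_
      rw [one_mul] at him ⊢
      exact im_aL_nonneg x.1.κ_nonneg (by linarith) him
    · refine Eventually.of_forall fun x hx hx4 him => ?_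
      have h1 := im_aL_nonneg (q := x.1.q) (κ := x.1.κ) x.1.κ_nonneg (w := starRingEnd ℂ x.2)
        (by simp; linarith) (by simp; linarith)
      rw [aL_conj, Complex.conj_im] at h1
      linarith
  a_im' := by
    rintro s (rfl | rfl)
    · refine Eventually.of_forall fun x hx hx4 him => ?_
      rw [one_mul] at him ⊢
      exact im_aL_ge x.1.κ_nonneg x.1.κ_le (by linarith) (by linarith) (by linarith)
    · refine Eventually.of_forall fun x hx hx4 him => ?_
      have h1 := im_aL_ge (q := x.1.q) (κ := x.1.κ) x.1.κ_nonneg x.1.κ_le (w := starRingEnd ℂ x.2)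
        (by simp; linarith) (by simp; linarith) (by simp; linarith)
      rw [aL_conj, Complex.conj_im] at h1
      linarith
  L_growth := Eventually.of_forall fun x hx hx8 => by
    have h1 := norm_LFunction_le x.1.ne_one (s := x.2) (by linarith)
    have hq := x.1.one_le
    have h2 : ‖x.2‖ ≤ 8 * (|x.2.im| + 1) := by
      refine (Complex.norm_le_abs_re_add_abs_im _).trans ?_
      rw [abs_of_nonneg (by linarith : 0 ≤ x.2.re)]
      have := abs_nonneg x.2.im
      linarith
    have h3 : (x.1.q : ℝ) / x.2.re ≤ 2 * x.1.q := by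
      rw [div_le_iff₀ (by linarith)]
      nlinarith
    have hy : 0 < |x.2.im| + 1 := by positivity
    have h4 : ‖x.1.χ.LFunction x.2‖ ≤ 16 * (x.1.q * (|x.2.im| + 1)) := by
      calc ‖x.1.χ.LFunction x.2‖ ≤ ‖x.2‖ * (x.1.q / x.2.re) := h1
        _ ≤ (8 * (|x.2.im| + 1)) * (2 * x.1.q) := by gcongr
        _ = _ := by ring
    have h5 : x.1.q * (|x.2.im| + 1) = Real.exp (cc (fun p : PChar => (p.q : ℝ)) x) := by
      unfold cc
      rw [Real.exp_log (by positivity)]
    have h6 : (16:ℝ) ≤ Real.exp 19 := by
      have := Real.add_one_le_exp (19:ℝ)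
      linarith
    have hc : 0 ≤ cc (fun p : PChar => (p.q : ℝ)) x := by
      unfold cc
      apply Real.log_nonneg
      nlinarith [abs_nonneg x.2.im]
    have hB := Bz_nonneg
    refine h4.trans ?_
    rw [h5]
    calc 16 * Real.exp (cc (fun p : PChar => (p.q : ℝ)) x) ≤
        Real.exp 19 * Real.exp (cc (fun p : PChar => (p.q : ℝ)) x) := by gcongr
      _ = Real.exp (19 + cc (fun p : PChar => (p.q : ℝ)) x) := by rw [← Real.exp_add]
      _ ≤ _ := by
        apply Real.exp_le_exp.2
        nlinarith
  L_bdd := Eventually.of_forall fun x hx => by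
    have h1 := norm_LFunction_le_tsum x.1.χ hx
    have h2 : ‖x.1.χ.LFunction x.2‖ ≤ Bz := h1
    linarith
  L_one := Eventually.of_forall fun x hx => by
    have h1 := norm_LFunction_sub_one_le x.1.χ hx
    linarith

/-- for `q = 1` a large conductor is a large height -/
lemma big_one {P : Unit × ℂ → Prop} {T : ℝ} (h : ∀ x : Unit × ℂ, T ≤ |x.2.im| → P x) :
    ∀ᶠ x in big (fun _ : Unit => (1:ℝ)), P x := by
  rw [eventually_big]
  refine ⟨Real.log (max T 0 + 1), fun x hx => h x ?_⟩
  unfold cc at hx
  simp only [one_mul] at hx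
  have h1 := (Real.log_le_log_iff (by positivity) (by positivity)).1 hx
  have := le_max_left T 0
  linarith

/-- **Riemann's `ξ`.** -/
noncomputable def xiFam : LFam Unit where
  q _ := 1
  one_le_q _ := le_rfl
  F _ := xi
  G _ := GXi
  L _ := riemannZeta
  a _ := aXi
  κ := 1/400
  κ_pos := by norm_num
  A := 20 + Bz
  A_pos := by have := Bz_nonneg; linarith
  F_diff _ := differentiable_xi
  fac := big_one (T := 1) fun x hT hx => xi_eq (by linarith) (by
    intro h; rw [h] at hT; simp at hT; linarith)
  G_ne := big_one (T := 1) fun x hT hx => GXi_ne_zero (by linarith) (by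
    intro h; rw [h] at hT; simp at hT; linarith)
  G_deriv := big_one (T := 1) fun x hT hx => by
    have := hasDerivAt_GXi (s := x.2) (by linarith) (by
      intro h; rw [h] at hT; simp at hT; linarith)
    rwa [mul_comm] at this
  a_diff := big_one (T := 1) fun x hT hx => differentiableAt_aXi (by linarith) (by
    intro h; rw [h] at hT; simp at hT; linarith)
  a_re := big_one (T := 1) fun x hT hx => by
    have h1 := re_aXi_ge hx hT
    have h2 : cc (fun _ : Unit => (1 : ℝ)) x = cq 1 x.2 := rfl
    have h3 := Bz_nonneg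
    rw [h2]
    linarith
  a_norm := big_one (T := 1) fun x hT hx hx8 => by
    have h1 := norm_aXi_sub_le8 hx hx8 hT
    have h2 : cc (fun _ : Unit => (1 : ℝ)) x = cq 1 x.2 := rfl
    have h3 := Bz_nonneg
    rw [h2]
    push_cast
    linarith
  a_im := by
    rintro s (rfl | rfl)
    · refine big_one (T := 800) fun x hT hx hx4 him => ?_
      rw [one_mul] at him ⊢
      have := im_aXi_ge (w := x.2) (by linarith) (by linarith) (by rwa [abs_of_nonneg him] at hT)
      linarith
    · refine big_one (T := 800) fun x hT hx hx4 him => ?_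
      have h0 : x.2.im ≤ 0 := by linarith
      have h1 := im_aXi_ge (w := starRingEnd ℂ x.2)
        (by simp; linarith) (by simp; linarith) (by
          rw [abs_of_nonpos h0] at hT
          simpa using hT)
      rw [aXi_conj, Complex.conj_im] at h1
      linarith
  a_im' := by
    rintro s (rfl | rfl)
    · refine big_one (T := 800) fun x hT hx hx4 him => ?_
      rw [one_mul] at him ⊢
      exact im_aXi_ge (w := x.2) (by linarith) (by linarith) (by
        rwa [abs_of_nonneg (by linarith)] at hT)
    · refine big_one (T := 800) fun x hT hx hx4 him => ?_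
      have h0 : x.2.im ≤ 0 := by linarith
      have h1 := im_aXi_ge (w := starRingEnd ℂ x.2)
        (by simp; linarith) (by simp; linarith) (by
          rw [abs_of_nonpos h0] at hT
          simpa using hT)
      rw [aXi_conj, Complex.conj_im] at h1
      linarith
  L_growth := big_one (T := 1) fun x hT hx hx8 => by
    have h1 := norm_zeta_sub_le (s := x.2) (by linarith) (by
      intro h; rw [h] at hT; simp at hT; linarith)
    have h2 : ‖x.2‖ ≤ 8 * (|x.2.im| + 1) := by
      refine (Complex.norm_le_abs_re_add_abs_im _).trans ?_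
      rw [abs_of_nonneg (by linarith : 0 ≤ x.2.re)]
      have := abs_nonneg x.2.im
      linarith
    have hy : 0 < |x.2.im| + 1 := by positivity
    have h3 : ‖(1:ℂ) / (x.2 - 1)‖ ≤ 1 := by
      rw [norm_div, norm_one]
      apply div_le_one_of_le₀ _ (norm_nonneg _)
      have := Complex.abs_im_le_norm (x.2 - 1)
      simp at this
      linarith
    have h7 : ‖x.2‖ / x.2.re ≤ 2 * ‖x.2‖ := by
      rw [div_le_iff₀ (by linarith)]
      nlinarith [norm_nonneg x.2]
    have h4 : ‖riemannZeta x.2‖ ≤ 18 * (|x.2.im| + 1) := by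
      calc ‖riemannZeta x.2‖ = ‖(riemannZeta x.2 - 1 / (x.2 - 1)) + 1 / (x.2 - 1)‖ := by ring_nf
        _ ≤ ‖riemannZeta x.2 - 1 / (x.2 - 1)‖ + ‖(1:ℂ) / (x.2 - 1)‖ := norm_add_le _ _
        _ ≤ (1 + 2 * (8 * (|x.2.im| + 1))) + 1 := by gcongr; linarith
        _ ≤ 18 * (|x.2.im| + 1) := by nlinarith [abs_nonneg x.2.im]
    have h5 : |x.2.im| + 1 = Real.exp (cc (fun _ : Unit => (1:ℝ)) x) := by
      unfold cc
      rw [Real.exp_log (by positivity), one_mul]
    have h6 : (18:ℝ) ≤ Real.exp 19 := by
      have := Real.add_one_le_exp (19:ℝ)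
      linarith
    have hc : 0 ≤ cc (fun _ : Unit => (1:ℝ)) x := by
      unfold cc
      apply Real.log_nonneg
      linarith [abs_nonneg x.2.im]
    have hB := Bz_nonneg
    refine h4.trans ?_
    rw [h5]
    calc 18 * Real.exp (cc (fun _ : Unit => (1:ℝ)) x) ≤
        Real.exp 19 * Real.exp (cc (fun _ : Unit => (1:ℝ)) x) := by gcongr
      _ = Real.exp (19 + cc (fun _ : Unit => (1:ℝ)) x) := by rw [← Real.exp_add]
      _ ≤ _ := by
        apply Real.exp_le_exp.2
        nlinarith
  L_bdd := Eventually.of_forall fun x hx => by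
    have h2 : ‖riemannZeta x.2‖ ≤ Bz := norm_zeta_le_tsum hx
    linarith
  L_one := Eventually.of_forall fun x hx => by
    have h1 := norm_zeta_sub_one_le hx
    linarith

end Vale.Agent.P026.H832
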