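import Vale.Agent.P026.H832.F4
import Vale.Agent.P026.H832.B12
import Vale.Agent.P026.H725.GLInst

/-!
The literal forms: no restriction on the height.
-/

open Complex Filter Metric Set Topology P026.H725

namespace Vale.Agent.P026.H832

/-- from large conductors to all conductors, for a family of continuous functions without zeros in
`Re s ≥ 1` -/
theorem family_all {F : ∀ (q : ℕ) [NeZero q], DirichletCharacter ℂ q → ℂ → ℂ}
    (hcont : ∀ (q : ℕ) [NeZero q] (χ : DirichletCharacter ℂ q), χ.IsPrimitive → χ ≠ 1 →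
      Continuous (F q χ))
    (hone : ∀ (q : ℕ) [NeZero q] (χ : DirichletCharacter ℂ q), χ.IsPrimitive → χ ≠ 1 →
      ∀ s : ℂ, 1 ≤ s.re → F q χ s ≠ 0)
    {σ : ℝ} {C : ℝ}
    (h : ∀ (q : ℕ) [NeZero q] (χ : DirichletCharacter ℂ q), χ.IsPrimitive → χ ≠ 1 →
      ∀ s : ℂ, σ < s.re → C ≤ q * (|s.im| + 1) → F q χ s ≠ 0) :
    ∃ σ1 < (1:ℝ), ∀ (q : ℕ) [NeZero q] (χ : DirichletCharacter ℂ q), χ.IsPrimitive → χ ≠ 1 →
      ∀ s : ℂ, σ < s.re → σ1 < s.re → F q χ s ≠ 0 := by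
  -- one character
  have hone' : ∀ (q : ℕ) (χ : DirichletCharacter ℂ q), ∃ σ1 < (1:ℝ), ∀ _ : NeZero q,
      χ.IsPrimitive → χ ≠ 1 →
      ∀ s : ℂ, σ ≤ s.re → s.re ≤ 1 → |s.im| ≤ C → F q χ s = 0 → s.re ≤ σ1 := by
    intro q χ
    by_cases hq : q = 0
    · exact ⟨0, by norm_num, fun h0 => absurd hq h0.out⟩
    by_cases hχ : χ.IsPrimitive ∧ χ ≠ 1
    · have : NeZero q := ⟨hq⟩
      obtain ⟨σ1, h1, h2⟩ := exists_lt_one (hcont q χ hχ.1 hχ.2) (isCompact_box σ 1 C)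
        (fun s hs hre => hone q χ hχ.1 hχ.2 s hre)
      exact ⟨σ1, h1, fun _ _ _ s hs hs1 hC h0 => h2 s ⟨hs, hs1, hC⟩ h0⟩
    · exact ⟨0, by norm_num, fun _ h0 h1 => (hχ ⟨h0, h1⟩).elim⟩
  -- finitely many characters
  have hfin : ∀ N : ℕ, ∃ σ1 < (1:ℝ), ∀ q : ℕ, q ≤ N → ∀ _ : NeZero q,
      ∀ χ : DirichletCharacter ℂ q, χ.IsPrimitive → χ ≠ 1 →
      ∀ s : ℂ, σ ≤ s.re → s.re ≤ 1 → |s.im| ≤ C → F q χ s = 0 → s.re ≤ σ1 := by
    intro N
    induction N with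
    | zero => exact ⟨0, by norm_num, fun q hq h0 => absurd (Nat.le_zero.1 hq) h0.out⟩
    | succ N ih =>
      obtain ⟨σa, ha, hA⟩ := ih
      have : NeZero (N+1) := ⟨Nat.succ_ne_zero N⟩
      choose g hg1 hg2 using hone' (N+1)
      have : Finite (DirichletCharacter ℂ (N+1)) := inferInstance
      have : Fintype (DirichletCharacter ℂ (N+1)) := Fintype.ofFinite _
      have hne : (Finset.univ : Finset (DirichletCharacter ℂ (N+1))).Nonempty := ⟨1, Finset.mem_univ _⟩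
      refine ⟨max σa (Finset.univ.sup' hne g), max_lt ha ((Finset.sup'_lt_iff hne).2 fun χ _ => hg1 χ),
        ?_⟩
      intro q hq hN χ hp hχ s hs hs1 hC h0
      rcases Nat.lt_or_ge N q with h5 | h5
      · have : q = N + 1 := le_antisymm hq h5
        subst this
        exact (hg2 χ hN hp hχ s hs hs1 hC h0).trans
          ((Finset.le_sup' g (Finset.mem_univ χ)).trans (le_max_right _ _))
      · exact (hA q h5 hN χ hp hχ s hs hs1 hC h0).trans (le_max_left _ _)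
  obtain ⟨N, hN⟩ := exists_nat_ge C
  obtain ⟨σ1, h1, h2⟩ := hfin N
  refine ⟨σ1, h1, fun q hq χ hp hχ s hs hs1 h0 => ?_⟩
  rcases le_or_gt 1 s.re with h3 | h3
  · exact hone q χ hp hχ s h3 h0
  rcases le_or_gt C (q * (|s.im| + 1)) with h4 | h4
  · exact h q χ hp hχ s hs h4 h0
  · have hq1 : (1:ℝ) ≤ q := by exact_mod_cast Nat.one_le_iff_ne_zero.2 hq.ne
    have hi := abs_nonneg s.im
    have h5 : |s.im| ≤ C := by nlinarith
    have h6 : (q:ℝ) ≤ N := by nlinarith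
    have h7 : q ≤ N := by exact_mod_cast h6
    have := h2 q h7 hq χ hp hχ s hs.le h3.le h5 h0
    linarith

/-- **Q1**, literal form -/
theorem quasi_xi' (k : ℕ) :
    (∃ σ0 < (1:ℝ), ∀ s : ℂ, σ0 < s.re → riemannZeta s ≠ 0) ↔
    (∃ σ0 < (1:ℝ), ∀ s : ℂ, σ0 < s.re → iteratedDeriv k xi s ≠ 0) := by
  rw [quasi_xi k]
  constructor
  · rintro ⟨σ0, h0, T, h⟩
    have hcont : Continuous (iteratedDeriv k xi) := differentiable_xi.contDiff.continuous_iteratedDeriv k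
      (by exact_mod_cast le_top)
    obtain ⟨σ1, h1, h2⟩ := exists_lt_one hcont (isCompact_box σ0 1 T)
      (fun s hs hre => iteratedDeriv_xi_ne_zero k hre)
    refine ⟨max σ0 σ1, max_lt h0 h1, fun s hs h3 => ?_⟩
    have a1 : σ0 < s.re := (le_max_left _ _).trans_lt hs
    have a2 : σ1 < s.re := (le_max_right _ _).trans_lt hs
    rcases le_or_gt 1 s.re with h4 | h4
    · exact iteratedDeriv_xi_ne_zero k h4 h3
    rcases le_or_gt T |s.im| with h5 | h5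
    · exact h s a1 h5 h3
    · have := h2 s ⟨a1.le, h4.le, h5.le⟩ h3
      linarith
  · rintro ⟨σ0, h0, h⟩
    exact ⟨σ0, h0, 0, fun s hs _ => h s hs⟩

/-- **Q2**, literal form -/
theorem quasi_chi' (k : ℕ) :
    (∃ σ0 < (1:ℝ), ∀ (q : ℕ) [NeZero q] (χ : DirichletCharacter ℂ q) (s : ℂ),
      σ0 < s.re → s.re < 1 → χ.LFunction s ≠ 0) ↔
    (∃ σ0 < (1:ℝ), (∀ s : ℂ, σ0 < s.re → iteratedDeriv k xi s ≠ 0) ∧
      ∀ (q : ℕ) [NeZero q] (χ : DirichletCharacter ℂ q), χ.IsPrimitive → χ ≠ 1 →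
        ∀ s : ℂ, σ0 < s.re → iteratedDeriv k (Lam χ) s ≠ 0) := by
  rw [quasi_chi k]
  constructor
  · rintro ⟨σ0, h0, C, hx, hc⟩
    obtain ⟨σa, ha, hA⟩ := (quasi_xi' k).1 ((quasi_xi k).2 ⟨σ0, h0, C, hx⟩)
    obtain ⟨σ1, h1, h2⟩ := family_all (F := fun q _ χ => iteratedDeriv k (Lam χ))
      (fun q hq χ hp hχ => (PChar.differentiable_Lam ⟨q, hq.ne, χ, hp, hχ⟩).contDiff.continuous_iteratedDeriv k
        (by exact_mod_cast le_top))
      (fun q _ χ hp hχ s hs => iteratedDeriv_Lam_ne_zero hp hχ k hs) hc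
    refine ⟨max (max σ0 σ1) σa, max_lt (max_lt h0 h1) ha, fun s hs => hA s ((le_max_right _ _).trans_lt hs),
      fun q _ χ hp hχ s hs => ?_⟩
    have hs' : max σ0 σ1 < s.re := (le_max_left _ _).trans_lt hs
    exact h2 q χ hp hχ s ((le_max_left _ _).trans_lt hs') ((le_max_right _ _).trans_lt hs')
  · rintro ⟨σ0, h0, hx, hc⟩
    exact ⟨σ0, h0, 0, fun s hs _ => hx s hs, fun q _ χ hp hχ s hs _ => hc q χ hp hχ s hs⟩

end Vale.Agent.P026.H832
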